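import Vale.Agent.P354XP.Props

/-!
The window in the chart of the cone.
-/

open scoped ContDiff
open Set Filter Topology Matrix Function

noncomputable section

namespace Vale.Agent.P354CH

open Vale.Agent.P354H (X3 e pdl)
open Vale.Agent.P354I (X ee pd Cyl Cy1)
open Vale.Agent.P354J (M3)
open Vale.Agent.P354PU (JG JX JG_eq JX_inv fd_vec df0)
open Vale.Agent.P354XB (Sa Win)
open Vale.Agent.P354XP

theorem ex_X (v : X) : v = ∑ i, v i • ee i := by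
  ext j
  simp [ee, Pi.single_apply]

theorem ex_X3 (v : X3) : v = v.1 • e 0 + v.2.1 • e 1 + v.2.2 • e 2 := by
  simp [e]

theorem mm {V : Type} [AddCommGroup V] [Module ℝ V] {A M : M3} (h : A * M = 1) (v : Fin 3 → V)
    (i : Fin 3) : ∑ c, A i c • ∑ b, M c b • v b = v i := by
  simp only [Finset.smul_sum, smul_smul]
  rw [Finset.sum_comm]
  simp only [← Finset.sum_smul, ← Matrix.mul_apply, h, Matrix.one_apply, ite_smul, one_smul,
    zero_smul, Finset.sum_ite_eq, Finset.mem_univ, if_true]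

/-- The inverse function theorem on an open set. -/
theorem ift {τ : X3 → X} {U : Set X3} {A M : X3 → M3} (hU : IsOpen U) (hτ : ContDiffOn ℝ ∞ τ U)
    (hi : InjOn τ U)
    (hA : ∀ z ∈ U, (∀ i, fderiv ℝ τ z (e i) = ∑ b, A z i b • ee b) ∧ A z * M z = 1) :
    IsOpen (τ '' U) ∧ ContDiffOn ℝ ∞ (invFunOn τ U) (τ '' U) ∧
      ∀ z ∈ U, ∀ i, fderiv ℝ (invFunOn τ U) (τ z) (ee i) = ∑ b, M z i b • e b := by
  have key : ∀ z ∈ U, τ '' U ∈ 𝓝 (τ z) ∧ ContDiffAt ℝ ∞ (invFunOn τ U) (τ z) ∧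
      ∀ i, fderiv ℝ (invFunOn τ U) (τ z) (ee i) = ∑ b, M z i b • e b := fun z hz => by
    obtain ⟨h1, h2⟩ := hA z hz
    have c := hτ.contDiffAt (hU.mem_nhds hz)
    obtain ⟨g, hg⟩ : ∃ g : X →L[ℝ] X3, ∀ i, g (ee i) = ∑ b, M z i b • e b :=
      ⟨∑ i, (EuclideanSpace.proj i : X →L[ℝ] ℝ).smulRight (∑ b, M z i b • e b), fun i => by
        simp [ee, Pi.single_apply]⟩
    have l1 : ∀ a, g (fderiv ℝ τ z (e a)) = e a := fun a => by
      simp only [h1, map_sum, map_smul, hg, mm h2]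
    have l2 : ∀ a, fderiv ℝ τ z (g (ee a)) = ee a := fun a => by
      simp only [hg, map_sum, map_smul, h1, mm (mul_eq_one_comm.1 h2)]
    let L : X3 ≃L[ℝ] X := ContinuousLinearEquiv.equivOfInverse (fderiv ℝ τ z) g
      (fun v => by
        conv_lhs => rw [ex_X3 v]
        simp only [map_add, map_smul, l1]
        exact (ex_X3 v).symm)
      (fun v => by
        conv_lhs => rw [ex_X v]
        simp only [map_sum, map_smul, l2]
        exact (ex_X v).symm)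
    have d : HasFDerivAt τ (L : X3 →L[ℝ] X) z := (c.differentiableAt (by simp)).hasFDerivAt
    have s := c.hasStrictFDerivAt' d (by simp)
    have li : ∀ᶠ x in 𝓝 z, invFunOn τ U (τ x) = x :=
      mem_of_superset (hU.mem_nhds hz) hi.leftInvOn_invFunOn
    refine ⟨?_, (c.to_localInverse d (by simp)).congr_of_eventuallyEq
      (s.localInverse_unique li), fun i => ?_⟩
    · rw [← s.map_nhds_eq_of_equiv]; exact image_mem_map (hU.mem_nhds hz)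
    · rw [(s.to_local_left_inverse li).hasFDerivAt.fderiv]; exact hg i
  refine ⟨isOpen_iff_mem_nhds.2 ?_, ?_, fun z hz => (key z hz).2.2⟩ <;> rintro _ ⟨z, hz, rfl⟩
  exacts [(key z hz).1, (key z hz).2.1.contDiffWithinAt]

theorem lam_sq (σ : Bool) (x : X) : ‖Lam σ x‖ ^ 2 = x 0 ^ 2 + (x 1 ^ 2 + x 2 ^ 2) / 4 := by
  have := P354E.sg_sq σ
  simp only [EuclideanSpace.real_norm_sq_eq, Fin.sum_univ_three, Lam]
  simp
  linear_combination x 0 ^ 2 * this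

theorem lam_nm (σ : Bool) (x : X) : ‖Lam σ x‖ ≤ ‖x‖ ∧ ‖x‖ ≤ 2 * ‖Lam σ x‖ := by
  have a := lam_sq σ x
  have b : ‖x‖ ^ 2 = x 0 ^ 2 + x 1 ^ 2 + x 2 ^ 2 := by
    simp only [EuclideanSpace.real_norm_sq_eq, Fin.sum_univ_three]
  refine ⟨abs_le_of_sq_le_sq' ?_ (norm_nonneg _) |>.2,
    abs_le_of_sq_le_sq' ?_ (by positivity) |>.2⟩ <;>
    nlinarith [sq_nonneg (x 0), sq_nonneg (x 1), sq_nonneg (x 2)]

variable {P : Type}

/-- The frame on the outside of the unit ball. -/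
def out {E : Type} [TopologicalSpace E] (F : Fr P E) : Fr P X where
  l := F.l
  e := ee
  U _ := {0}ᶜ
  V _ := {y | 1 ≤ ‖y‖}
  G := F.G
  c _ := 1
  ok := F.ok.mono fun _ o => ⟨isOpen_compl_singleton, fun y hy h => by
    rw [show y = 0 from h] at hy; exact absurd hy (by norm_num), o.2.2.1, fun _ _ _ => zero_le_one⟩

theorem t_JX {E : Type} [TopologicalSpace E] (F : Fr P E) {B : ℕ → ℝ} {ψ : P → X → X}
    (h : ∀ᶠ r in F.l, Cy1 B (ψ r) ∧ ∀ y ≠ 0, ‖ψ r y‖ ≤ 2 * ‖y‖) (n : ℕ) (i k : Fin 3) :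
    (out F).T n 1 fun r y => JX (ψ r) y i k := by
  let p : X →L[ℝ] ℝ := EuclideanSpace.proj k
  have s : (out F).Sm fun r y => p (ψ r y) := h.mono fun r h => p.contDiff.comp_contDiffOn h.1.sm
  refine (Fr.T.of_ifd (F := out F) (c := 1) (fun i => by simp [out, ee]) (fun _ => rfl) (s.d i)
    fun j _ => ?_).congr (h.mono fun r h y hy => congrArg (fun L : X →L[ℝ] ℝ => L (ee i))
      (p.hasFDerivAt.comp y (df0 h.1.sm hy).hasFDerivAt).fderiv)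
  rw [one_pow, mul_one]
  refine (Fr.b0_cst (2 * |B (j + 1)|)).trans (Fr.B0.of_le (h.mono fun r h y hy => ?_))
  have y1 : 1 ≤ ‖y‖ := hy
  have y0 : y ≠ 0 := norm_pos_iff.1 (by linarith)
  have c := h.1.sm.contDiffAt (isOpen_compl_singleton.mem_nhds y0)
  have a1 := Fr.ifd_d (p.contDiff.contDiffAt.comp y c) (ee i) j
  have a2 : ‖iteratedFDeriv ℝ (j + 1) (p ∘ ψ r) y‖ ≤ ‖iteratedFDeriv ℝ (j + 1) (ψ r) y‖ := by
    rw [p.iteratedFDeriv_comp_left c (by exact_mod_cast le_top)]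
    refine (ContinuousLinearMap.norm_compContinuousMultilinearMap_le _ _).trans
      (mul_le_of_le_one_left (norm_nonneg _) (p.opNorm_le_bound zero_le_one fun v => ?_))
    rw [one_mul]; exact PiLp.norm_apply_le v k
  have a3 : ‖y‖ * ‖iteratedFDeriv ℝ (j + 1) (ψ r) y‖ ≤ ‖y‖ * (2 * |B (j + 1)|) :=
    calc _ ≤ ‖y‖ ^ (j + 1) * ‖iteratedFDeriv ℝ (j + 1) (ψ r) y‖ :=
          mul_le_mul_of_nonneg_right (le_self_pow₀ y1 j.succ_ne_zero) (norm_nonneg _)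
      _ ≤ B (j + 1) * ‖ψ r y‖ := h.1.bd _ y y0
      _ ≤ |B (j + 1)| * (2 * ‖y‖) :=
          mul_le_mul (le_abs_self _) (h.2 y y0) (norm_nonneg _) (abs_nonneg _)
      _ = _ := by ring
  rw [show ‖ee i‖ = 1 by simp [ee], one_mul] at a1
  rw [abs_norm]
  exact a1.trans (a2.trans (le_of_mul_le_mul_left a3 (by linarith)))

section
variable {E : Type} [NormedAddCommGroup E] [NormedSpace ℝ E] {F : Fr P E} {k : ℕ}
  {A A' : P → E → M3}

theorem t_mm (h : ∀ i j, F.T k 1 fun r x => A r x i j) (h' : ∀ i j, F.T k 1 fun r x => A' r x i j)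
    (i j : Fin 3) : F.T k 1 fun r x => (A r x * A' r x) i j :=
  Fr.T.fsum fun b => (h i b).mul1 (h' b j)

theorem t_det (h : ∀ i j, F.T k 1 fun r x => A r x i j) : F.T k 1 fun r x => (A r x).det :=
  ((((((((h 0 0).mul1 (h 1 1)).mul1 (h 2 2)).sub (((h 0 0).mul1 (h 1 2)).mul1 (h 2 1))).sub
    (((h 0 1).mul1 (h 1 0)).mul1 (h 2 2))).add (((h 0 1).mul1 (h 1 2)).mul1 (h 2 0))).add
    (((h 0 2).mul1 (h 1 0)).mul1 (h 2 1))).sub (((h 0 2).mul1 (h 1 1)).mul1 (h 2 0))).cast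
    (funext fun _ => funext fun _ => (det_fin_three _).symm)

theorem t_inv (h : ∀ i j, F.T k 1 fun r x => A r x i j) (z : F.Ev fun r x => (A r x).det ≠ 0)
    (b : F.B0 1 fun r x => (A r x).det⁻¹) (i j : Fin 3) : F.T k 1 fun r x => (A r x)⁻¹ i j :=
  (((t_det h).inv z b).mul1 (((h (j + 1) (i + 1)).mul1 (h (j + 2) (i + 2))).sub
    ((h (j + 1) (i + 2)).mul1 (h (j + 2) (i + 1))))).cast (funext fun r => funext fun x => by
      rw [inv_def, Ring.inverse_eq_inv', Matrix.smul_apply, Tri.adj3, smul_eq_mul]; rfl)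

end

theorem Dw_eq : ∀ (α : List (Fin 3)) (f : Fn P X3) (r : P), Fr.Dw e α f r = pdl α (f r)
  | [], _, _ => rfl
  | _ :: α, _, r => Dw_eq α _ r

theorem fd_j {j : X3 → X} {z : X3} (h : DifferentiableAt ℝ j z) (i : Fin 3) :
    fderiv ℝ j z (e i) = ∑ b, JG j z i b • ee b := by
  simp only [JG_eq h]; exact ex_X _

theorem fd_tau {j : X3 → X} {Θ : X → X} {z : X3} (h : DifferentiableAt ℝ j z)
    (h' : DifferentiableAt ℝ Θ (j z)) (i : Fin 3) :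
    fderiv ℝ (fun z => Θ (j z)) z (e i) = ∑ b, (JG j z * JX Θ (j z)) i b • ee b := by
  rw [fderiv_fun_comp z h' h, ContinuousLinearMap.comp_apply, fd_vec, ex_X (∑ _, _)]
  simp [Matrix.mul_apply, JG_eq h, JX]

theorem chart : CHART := by
  intro P B c n F R w ρ σ j Ψ Θ he hV hc h
  have H : ∀ᶠ r in F.l, Cyl B (Ψ r) (Θ r) ∧ (∀ y ≠ 0, ‖Ψ r y‖ ≤ 2 * ‖y‖) ∧
      (∀ y ≠ 0, ‖Θ r y‖ ≤ 2 * ‖y‖) ∧ ContDiffOn ℝ ∞ (j r) (F.U r) ∧ InjOn (j r) (F.U r) ∧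
      ∀ z ∈ F.U r, 1 ≤ ‖j r z‖ ∧ j r z ≠ 0 ∧ 1 ≤ ‖Θ r (j r z)‖ ∧ (JG (j r) z).det ≠ 0 ∧
        |(JG (j r) z).det⁻¹| ≤ F.G r ∧ DifferentiableAt ℝ (j r) z ∧
        ∀ i, Sa 1 (n + 1) (fun x => j r x i) z (F.G r) := by
    filter_upwards [h, F.ok] with r ⟨h1, h2, h3, h4, h5, _⟩ o
    have k : ∀ y ≠ 0, ‖y‖ ≤ ‖Θ r y‖ ∧ ‖Θ r y‖ ≤ 2 * ‖y‖ := fun y hy => by
      have := lam_nm (σ r) (Θ r y)
      rwa [← h5, (h4.inv y hy).1] at this
    refine ⟨h4, fun y _ => by linarith [h5 y, (lam_nm (σ r) y).1, norm_nonneg y],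
      fun y hy => (k y hy).2, h1 ▸ h3.sm, h1 ▸ h3.inj, fun z hz => ?_⟩
    have hz' := h1 ▸ hz
    have a1 := h2.trans (h3.loc z hz').1
    have a2 : j r z ≠ 0 := norm_pos_iff.1 (by linarith)
    have g : 0 < F.G r := by linarith [o.2.2.1]
    have a3 := (h3.bd z hz').1
    have a4 := (inv_pos.2 g).trans_le a3
    exact ⟨a1, a2, a1.trans (k _ a2).1, abs_pos.1 a4, by rw [abs_inv]; exact inv_le_of_inv_le₀ g a3,
      ((h1 ▸ h3.sm).contDiffAt (o.1.mem_nhds hz)).differentiableAt (by simp), (h3.bd z hz').2⟩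
  have c1 : ∀ α : List (Fin 3), (α.map F.c).prod = 1 := fun α =>
    List.prod_eq_one fun x hx => by obtain ⟨i, -, rfl⟩ := List.mem_map.1 hx; exact hc i
  have tJ : ∀ i b, F.T n 1 fun r z => JG (j r) z i b := fun i b => by
    have t : F.T (n + 1) 1 fun r z => j r z b := ⟨H.mono fun r h =>
      (EuclideanSpace.proj b : X →L[ℝ] ℝ).contDiff.comp_contDiffOn h.2.2.2.1,
      Fr.B.of_words 1 (H.mono fun r h α hα z hz => by
        rw [hV] at hz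
        simpa [he, Dw_eq, c1] using (h.2.2.2.2.2 z hz).2.2.2.2.2.2 b α hα)⟩
    have := t.d i
    rwa [hc, mul_one, he] at this
  have one : ∀ {E : Type} (τ : P → X3 → E), Fr.cp (1 : Fn P E) τ = 1 := fun _ => rfl
  have hb : ∀ (τ : P → X3 → X) (i b : Fin 3), F.B0 (F.c i) (Fr.cp ((out F).c b) τ * 1) :=
    fun τ i b => by rw [hc, mul_one]; exact Fr.b0_one
  have m1 : Fr.Mp F (out F) j fun i b r z => JG (j r) z i b := ⟨le_rfl, 1, H.mono fun r h =>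
    ⟨h.2.2.2.1, fun z hz => (h.2.2.2.2.2 z hz).2.1, fun z hz => (h.2.2.2.2.2 z (hV ▸ hz)).1,
      (pow_one _).ge, fun z hz i => he ▸ fd_j (h.2.2.2.2.2 z hz).2.2.2.2.2.1 i⟩⟩
  have tA := t_mm tJ fun i b => m1.comp tJ (hb j) n.le_succ
    (t_JX F (H.mono fun r h => ⟨h.1.r, h.2.2.1⟩) n i b)
  have sτ : ∀ᶠ r in F.l, ContDiffOn ℝ ∞ (fun z => Θ r (j r z)) (F.U r) ∧ ∀ z ∈ F.U r, ∀ i,
      fderiv ℝ (fun z => Θ r (j r z)) z (e i) = ∑ b, (JG (j r) z * JX (Θ r) (j r z)) i b • ee b :=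
    H.mono fun r h => ⟨h.1.r.sm.comp h.2.2.2.1 fun z hz => (h.2.2.2.2.2 z hz).2.1, fun z hz i =>
      fd_tau (h.2.2.2.2.2 z hz).2.2.2.2.2.1 (df0 h.1.r.sm (h.2.2.2.2.2 z hz).2.1) i⟩
  have m2 : Fr.Mp F (out F) (fun r z => Θ r (j r z))
      fun i b r z => (JG (j r) z * JX (Θ r) (j r z)) i b := ⟨le_rfl, 1, by
    filter_upwards [H, sτ] with r h s
    exact ⟨s.1, fun z hz => h.1.r.ne _ (h.2.2.2.2.2 z hz).2.1,
      fun z hz => (h.2.2.2.2.2 z (hV ▸ hz)).2.2.1, (pow_one _).ge, fun z hz i => he ▸ s.2 z hz i⟩⟩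
  have tM := t_mm (fun i b => m2.comp tA (hb _) n.le_succ
    (t_JX F (H.mono fun r h => ⟨h.1.l, h.2.1⟩) n i b))
    (t_inv tJ (H.mono fun r h z hz => (h.2.2.2.2.2 z hz).2.2.2.1)
      ⟨1, H.mono fun r h z hz => by simpa using (h.2.2.2.2.2 z (hV ▸ hz)).2.2.2.2.1⟩)
  obtain ⟨M, hM⟩ : ∃ M : P → X3 → M3,
      M = fun r z => JX (Ψ r) (Θ r (j r z)) * (JG (j r) z)⁻¹ := ⟨_, rfl⟩
  have tM' : ∀ i b, F.T n 1 fun r z => M r z i b := hM ▸ tM
  have K : ∀ᶠ r in F.l, InjOn (fun z => Θ r (j r z)) (F.U r) ∧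
      ∀ z ∈ F.U r, JG (j r) z * JX (Θ r) (j r z) * M r z = 1 := H.mono fun r h =>
    ⟨fun z hz z' hz' (q : Θ r _ = Θ r _) => h.2.2.2.2.1 hz hz' (by
      rw [← (h.1.inv _ (h.2.2.2.2.2 z hz).2.1).1, q, (h.1.inv _ (h.2.2.2.2.2 z' hz').2.1).1]),
    fun z hz => by
      rw [hM, mul_assoc, ← mul_assoc (JX _ _), JX_inv h.1.l h.1.r (fun y hy => (h.1.inv y hy).1)
        (h.2.2.2.2.2 z hz).2.1, one_mul, mul_nonsing_inv _ (h.2.2.2.2.2 z hz).2.2.2.1.isUnit]⟩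
  have I := (F.ok.and (sτ.and K)).mono fun r h =>
    ift h.1.1 h.2.1.1 h.2.2.1 fun z hz => ⟨h.2.1.2 z hz, h.2.2.2 z hz⟩
  let F' : Fr P X := ⟨F.l, ee, fun r => (fun z => Θ r (j r z)) '' F.U r,
    fun r => (fun z => Θ r (j r z)) '' F.U r, F.G, fun _ => 1, by
      filter_upwards [F.ok, I] with r o i
      exact ⟨i.1, Subset.rfl, o.2.2.1, fun _ _ _ => zero_le_one⟩⟩
  have m3 : Fr.Mp F' F (fun r => invFunOn (fun z => Θ r (j r z)) (F.U r)) fun i b =>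
      Fr.cp (fun r z => M r z i b) fun r => invFunOn (fun z => Θ r (j r z)) (F.U r) :=
    ⟨le_rfl, 1, by
      filter_upwards [I, K] with r i k
      refine ⟨i.2.1, fun y hy => invFunOn_mem hy, fun y hy => by rw [hV]; exact invFunOn_mem hy,
        (pow_one _).ge, ?_⟩
      rintro _ ⟨z, hz, rfl⟩ a
      simp only [Fr.cp, k.1.leftInvOn_invFunOn hz, he]
      exact i.2.2 z hz a⟩
  refine ⟨F', _, _, rfl, rfl, rfl, rfl, fun _ => rfl, fun _ => rfl, m3, ⟨le_rfl, 1, ?_⟩,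
    fun i b => ⟨m3.comp' tM' (fun i b => ?_) n.le_succ (tM' i b), tA i b⟩, ?_⟩
  · filter_upwards [sτ] with r s
    exact ⟨s.1, mapsTo_image _ _, hV ▸ mapsTo_image _ _, (pow_one _).ge,
      fun z hz i => he ▸ s.2 z hz i⟩
  · rw [hc, mul_one]; exact Fr.b0_one
  · filter_upwards [K] with r k z hz
    refine ⟨k.1.leftInvOn_invFunOn hz, ?_⟩
    simp only [Fr.cp, k.1.leftInvOn_invFunOn hz]
    exact k.2 z hz

end Vale.Agent.P354CH
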