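import Vale.Agent.P354XP.Props

/-!
The hull of a compact set is an invariant cone in the chart.
-/

open Set Filter Topology

noncomputable section

namespace Vale.Agent.P354CH

open Vale.Agent.P354I (X)
open Vale.Agent.P354XC (Gam Cone)
open Vale.Agent.P354XP

theorem dir_ct {y : X} (hy : y ≠ 0) : ContinuousAt dir y :=
  (continuous_norm.continuousAt.inv₀ (norm_ne_zero_iff.2 hy)).smul continuousAt_id

theorem hull_cl {l : ℝ} {C : Set X} (hl : 0 ≤ l) (hC : IsCompact C) (h0 : (0 : X) ∉ C) :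
    IsClosed (Hull l C) := by
  refine IsSeqClosed.isClosed fun u y hu hy => ?_
  choose x hx hxu using hu
  obtain ⟨p, hp, φ, hφ, t1⟩ := hC.tendsto_subseq hx
  have t2 := hy.comp hφ.tendsto_atTop
  have p0 : p ≠ 0 := fun e => h0 (e ▸ hp)
  have a1 : ‖p‖ ≤ ‖y‖ := le_of_tendsto_of_tendsto' t1.norm t2.norm fun k =>
    le_trans (le_add_of_nonneg_right (mul_nonneg hl (norm_nonneg _))) (hxu (φ k))
  have y0 : y ≠ 0 := norm_pos_iff.1 ((norm_pos_iff.2 p0).trans_le a1)
  exact ⟨p, hp, le_of_tendsto_of_tendsto' (t1.norm.add (((((dir_ct y0).tendsto.comp t2).sub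
    ((dir_ct p0).tendsto.comp t1)).norm).const_mul l)) t2.norm fun k => hxu (φ k)⟩

theorem hull : HULL := by
  intro l R C Ψ hR hl hC h0 hΨ hs
  have c := hull_cl hl hC h0
  refine ⟨c, fun x hx => ⟨x, hx, by simp⟩, ?_, fun x hx => hx.1, fun y hy s s0 w w0 w1 w2 => ⟨?_, ?_⟩⟩
  · have g : IsClosed (Gam R) := by
      unfold Gam
      refine IsClosed.and ?_ (IsClosed.and ?_ ?_) <;> exact isClosed_le (by fun_prop) (by fun_prop)
    exact (hΨ.mono fun x hx e => by
      have := hx.1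
      rw [show x = 0 from e] at this
      exact absurd this (by simpa using hR)).preimage_isClosed_of_isClosed g c
  · obtain ⟨g0, g1, g2⟩ := hy.1
    have k : ∀ p q : ℝ, |p| ≤ y 0 → |q| ≤ 1 → |p + s * q| ≤ y 0 + s * 1 := fun p q hp hq =>
      (abs_add_le _ _).trans (add_le_add hp (by rw [abs_mul, abs_of_nonneg s0]; gcongr))
    refine ⟨?_, ?_, ?_⟩ <;> simp only [PiLp.add_apply, PiLp.smul_apply, smul_eq_mul, w0]
    exacts [by linarith, k _ _ g1 w1, k _ _ g2 w2]
  · obtain ⟨x, hx, h1⟩ := hy.2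
    refine ⟨x, hx, ?_⟩
    have a1 := mul_le_mul_of_nonneg_left
      (norm_sub_le_norm_sub_add_norm_sub (dir (Ψ (y + s • w))) (dir (Ψ y)) (dir x)) hl
    linarith [hs y hy.1 s s0 w w0 w1 w2]

end Vale.Agent.P354CH
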