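import Vale.Agent.P354YI.Jet

/-!
Composition and Lipschitz dependence for families of jets, for inner maps with bounded derivatives.
-/

open scoped ContDiff
open Set Filter Topology

namespace Vale.Agent.P354CH

open Vale.Agent.P354YI

variable {J E V W : Type} [NormedAddCommGroup E] [NormedSpace ℝ E] [NormedAddCommGroup V]
  [NormedSpace ℝ V] [NormedAddCommGroup W] [NormedSpace ℝ W] {m : ℕ} {x : J → E}
  {f f' : J → E → V} {v v' : J → V} {μ : J → ℝ}

theorem oj_sm (h : Oj m x (fun j y => f j y - v j) 1) (j : J) : ContDiffAt ℝ ∞ (f j) (x j) := by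
  simpa using (h.sm j).add (contDiffAt_const (c := v j))

theorem oj_fd (h : Oj (m + 1) x (fun j y => f j y - v j) 1) :
    Oj m x (fun j => fderiv ℝ (f j)) 1 := h.fd.congr' fun _ _ => (fderiv_sub_const _).symm

theorem oj_z (h : Oj m x f 1) : Oj m x (fun j y => f j y - (0 : J → V) j) 1 :=
  h.congr' fun _ _ => sub_zero _

theorem oj_id : Oj m x (fun j y => y - x j) 1 := .idm ⟨0, by simp⟩

theorem oj_pr (h : Oj m x (fun j y => f j y - v j) 1) (p : J → W) :
    Oj m x (fun j y => (p j, f j y) - (p j, v j)) 1 := (h.clm (.inr ℝ W V)).congr' (by simp)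

theorem oj_comp {G : J → V → W} (h : Oj m x (fun j y => f j y - v j) 1)
    (hG : Oj m (fun j => f j (x j)) G μ) : Oj m x (fun j y => G j (f j y)) μ := by
  cases m with
  | zero => exact .zero (fun j => (hG.sm j).comp _ (oj_sm h j)) hG.nn (hG.val.imp fun _ h => h.2)
  | succ m => exact Oj.comp (oj_sm h) (m + 1) (oj_fd h) hG

theorem oj_lip {G : J → V → W} {S : J → Set V} (h : Oj m x (fun j y => f j y - v j) 1)
    (h' : Oj m x (fun j y => f' j y - v' j) 1)
    (hS : ∀ j, segment ℝ (f j (x j)) (f' j (x j)) ⊆ S j)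
    (hd : Oj m x (fun j y => f j y - f' j y) μ) (hG : Os (m + 1) S G 1) :
    Oj m x (fun j y => G j (f j y) - G j (f' j y)) μ := by
  cases m with
  | zero =>
    have z : ∀ w : J → V, Oj (0 - 1) x (fun j => fderiv ℝ fun _ : E => w j) 1 := fun w =>
      (Oj.cst 0).congr' fun _ _ => by simp
    have k := Oj.lip (x := x) (f := fun j _ => f j (x j)) (f' := fun j _ => f' j (x j))
      (fun _ => contDiffAt_const) (fun _ => contDiffAt_const) hS 0 (G := G) (z _) (z _)
      (.const hd.nn (hd.val.imp fun _ h => h.2)) hG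
    exact .zero (fun j => (at_comp (f := f j) (hG.sm ⟨(j, _), hS j (left_mem_segment ℝ _ _)⟩)
      (oj_sm h j)).sub (at_comp (f := f' j) (hG.sm ⟨(j, _), hS j (right_mem_segment ℝ _ _)⟩)
      (oj_sm h' j))) hd.nn
      (k.val.imp fun _ h j => by simpa using h.2 j)
  | succ m => simpa using Oj.lip (oj_sm h) (oj_sm h') hS (m + 1) (oj_fd h) (oj_fd h') hd hG

theorem ev_mul (C : ℝ) {ρ : ℝ} (h : 0 < ρ) : ∀ᶠ e in 𝓝[>] (0 : ℝ), C * e ≤ ρ :=
  nhdsWithin_le_nhds (ContinuousAt.eventually_lt (f := fun e => C * e) (by fun_prop)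
    continuousAt_const (by simpa using h) |>.mono fun _ h => h.le)

end Vale.Agent.P354CH
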