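import Vale.Agent.P354CH.Lj
import Vale.Agent.P354YJ.Chain

/-!
Jets of slices in the charts of the ends.
-/

open scoped ContDiff
open Set Filter Topology Metric Matrix

noncomputable section

namespace Vale.Agent.P354CH

open Vale.Agent.P354n (R4)
open Vale.Agent.P354I (X P3 rm rp)
open Vale.Agent.P354R (omm)
open Vale.Agent.P354D (sgn)
open Vale.Agent.P354XE (xs pt rd ch kr D0 Par)
open Vale.Agent.P354XM (sh rd_sh rot rot_ap rot_norm sh_eq sh_sh sh_cd)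
open Vale.Agent.P354XA (xs_pt lin_fst linL rd_lin)
open Vale.Agent.P354XU (Jt)
open Vale.Agent.P354YR (ci DE DI isCh open_DE open_DI)
open Vale.Agent.P354YI (Oj Os)
open Vale.Agent.P354YJ (dl_ne lg_dl abs_lg shell_cpt lam p0_mem js_cd js_dl j0_ci j0_cd)
open Vale.Agent.P354YM

/-- The shells and the compact set of parameters. -/
def Sh (x : ℝ) : Set X := {y | y ≠ 0 ∧ |Real.log ‖y‖| ≤ x}
def Kp (j : Jd) : Set P3 := closedBall j.p0 (j.ε0 / 2)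

theorem inv_eq (q : Par) (p : R4) : inv q p = (p.1 / q.l,
    q.R 0 0 * p.2.1 + q.R 1 0 * p.2.2.1 + q.R 2 0 * p.2.2.2,
    q.R 0 1 * p.2.1 + q.R 1 1 * p.2.2.1 + q.R 2 1 * p.2.2.2,
    q.R 0 2 * p.2.1 + q.R 1 2 * p.2.2.1 + q.R 2 2 * p.2.2.2) := by
  simp [P354YM.inv, pt, xs, mulVec, dotProduct, Fin.sum_univ_three]

theorem inv_cd (q : Par) : ContDiff ℝ ∞ (inv q) := by
  rw [funext (inv_eq q)]
  fun_prop

theorem lin_inv {q : Par} (h : q.Rᵀ * q.R = 1) (hl : q.l ≠ 0) (p : R4) : q.lin (inv q p) = p := by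
  rw [Par.lin, P354YM.inv.eq_1, xs_pt]
  simp only [mulVec_mulVec, mul_eq_one_comm.1 h, one_mulVec]
  exact Prod.ext (mul_div_cancel₀ _ hl) rfl

theorem inv_lin {q : Par} (h : q.Rᵀ * q.R = 1) (hl : q.l ≠ 0) (p : R4) : inv q (q.lin p) = p := by
  rw [P354YM.inv.eq_1, lin_fst, Par.lin, xs_pt]
  simp only [mulVec_mulVec, h, one_mulVec]
  exact Prod.ext (mul_div_cancel_left₀ _ hl) rfl

theorem dl_cd (σ : Bool) (x : ℝ) : ContDiff ℝ ∞ (dl σ x) := contDiff_id.const_smul _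

theorem sh_sub (c φ : ℝ) (u v : R4) : sh c φ u - sh c φ v = rot φ (u - v) := by
  rw [sh_eq, sh_eq, map_sub, add_sub_add_right_eq_sub]

theorem oj_rot {I E : Type} [NormedAddCommGroup E] [NormedSpace ℝ E] {m : ℕ} {x : I → E}
    {f : I → E → R4} {μ : I → ℝ} (φ : I → ℝ) (h : Oj m x f μ) :
    Oj m x (fun i z => rot (φ i) (f i z)) μ :=
  Oj.apr (.const (v := fun i => rot (φ i)) (fun _ => zero_le_one)
    ⟨2, fun _ => (rot_norm _).trans (mul_one _).ge⟩) h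

variable {j : Jd} (h : j.Is) (σ : Bool) (n : ℕ)
include h

theorem kp_sub : Kp j ⊆ ball j.p0 j.ε0 := closedBall_subset_ball (half_lt_self h.hG.pos0.2.1)

theorem p0_kp : j.p0 ∈ Kp j := mem_closedBall_self (half_pos h.hG.pos0.2.1).le

section
variable {I : Type} {y : I → X} {p p' : I → P3} {μ : I → ℝ}

theorem os_js : Os n (fun _ : I => Kp j ×ˢ Sh 4) (fun _ (w : P3 × X) => j.Js σ w.1 w.2) 1 :=
  Oj.fix ((isCompact_closedBall _ _).prod (shell_cpt 4))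
    (fun w hw => js_cd h (kp_sub h hw.1) hw.2.1 σ) fun i => i.2

theorem js_a (hy : ∀ i, y i ∈ Sh 4) (hp : ∀ i, p i ∈ Kp j) :
    Oj n y (fun i => j.Js σ (p i)) 1 :=
  oj_comp (G := fun _ (w : P3 × X) => j.Js σ w.1 w.2) (oj_pr oj_id p)
    ((os_js h σ n).at id fun i => ⟨hp i, hy i⟩)

theorem js_b (hy : ∀ i, y i ∈ Sh 4) (hp : ∀ i, p i ∈ Kp j) (hp' : ∀ i, p' i ∈ Kp j)
    (hd : ∀ i, ‖p i - p' i‖ ≤ μ i) :
    Oj n y (fun i z => j.Js σ (p i) z - j.Js σ (p' i) z) μ := by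
  have s : ∀ i, segment ℝ (p i, y i) (p' i, y i) ⊆ Kp j ×ˢ Sh 4 := fun i =>
    (((convex_closedBall j.p0 (j.ε0 / 2)).prod (convex_singleton (y i))).segment_subset
      (mk_mem_prod (hp i) rfl) (mk_mem_prod (hp' i) rfl)).trans
      (prod_mono Subset.rfl (singleton_subset_iff.2 (hy i)))
  have d : Oj n y (fun i z => (p i, z) - (p' i, z)) μ :=
    (Oj.const (v := fun i => (p i - p' i, (0 : X))) (fun i => (norm_nonneg _).trans (hd i))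
      ⟨1, fun i => by simpa using hd i⟩).congr' (by simp)
  exact oj_lip (f := fun i z => (p i, z)) (f' := fun i z => (p' i, z))
    (G := fun _ (w : P3 × X) => j.Js σ w.1 w.2) (S := fun _ => Kp j ×ˢ Sh 4) (oj_pr oj_id p)
    (oj_pr oj_id p') s d (os_js h σ (n + 1))

end

theorem ex_B : ∃ B, ∀ σ, ∀ p ∈ Kp j, ∀ y ∈ Sh 4, |(j.Js σ p y).1| ≤ B := by
  have k := fun σ => (js_a h σ 0 (I := {w : P3 × X // w.1 ∈ Kp j ∧ w.2 ∈ Sh 4})
    (fun i => i.2.2) fun i => i.2.1).val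
  choose C _ hC using k
  refine ⟨max (C true) (C false), fun σ p hp y hy => (norm_fst_le _).trans
    (((hC σ ⟨(p, y), hp, hy⟩).trans_eq (mul_one _)).trans ?_)⟩
  cases σ
  exacts [le_max_right _ _, le_max_left _ _]

/-- The composition of two approximate shifts. -/
theorem step : ∃ C, 0 ≤ C ∧ ∀ (y : X) (G : X → R4) (F : R4 → R4) (c φ c' φ' μ : ℝ) (p p' : P3),
    y ∈ Sh 4 ∧ p ∈ Kp j ∧ p' ∈ Kp j ∧ μ ≤ 1 ∧ ‖p - p'‖ ≤ μ ∧ ContDiffAt ℝ ∞ G y ∧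
      ContDiffAt ℝ ∞ F (G y) ∧ Jt n (fun z => G z - sh c φ (j.Js σ p z)) y μ ∧
      Jt n (F - sh c' φ') (G y) μ →
    Jt n (fun z => F (G z) - sh (c' + c) (φ' + φ) (j.Js σ p' z)) y (C * μ) := by
  let I := {t : (X × (X → R4) × (R4 → R4)) × (ℝ × ℝ) × (ℝ × ℝ) × ℝ × P3 × P3 //
    t.1.1 ∈ Sh 4 ∧ t.2.2.2.2.1 ∈ Kp j ∧ t.2.2.2.2.2 ∈ Kp j ∧ t.2.2.2.1 ≤ 1 ∧
      ‖t.2.2.2.2.1 - t.2.2.2.2.2‖ ≤ t.2.2.2.1 ∧ ContDiffAt ℝ ∞ t.1.2.1 t.1.1 ∧
      ContDiffAt ℝ ∞ t.1.2.2 (t.1.2.1 t.1.1) ∧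
      Jt n (fun z => t.1.2.1 z - sh t.2.1.1 t.2.1.2 (j.Js σ t.2.2.2.2.1 z)) t.1.1 t.2.2.2.1 ∧
      Jt n (t.1.2.2 - sh t.2.2.1.1 t.2.2.1.2) (t.1.2.1 t.1.1) t.2.2.2.1}
  have a := js_a h σ n (I := I) (fun i => i.2.1) fun i => i.2.2.1
  have b := js_b h σ n (I := I) (fun i => i.2.1) (fun i => i.2.2.1) (fun i => i.2.2.2.1)
    fun i => i.2.2.2.2.2.1
  have g := Oj.of (J := I) (fun i => i.2.2.2.2.2.2.1.sub ((sh_cd _ _).contDiffAt.comp _ (a.sm i)))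
    fun i => i.2.2.2.2.2.2.2.2.1
  have f := Oj.of (J := I) (fun i => i.2.2.2.2.2.2.2.1.sub (sh_cd _ _).contDiffAt)
    fun i => i.2.2.2.2.2.2.2.2.2
  have g1 : Oj n (fun i : I => i.1.1.1) (fun i z => i.1.1.2.1 z - ((i.1.2.1.1, 0) : R4)) 1 :=
    ((g.mono le_rfl fun i => i.2.2.2.2.1).add (oj_rot (fun i => i.1.2.1.2) a)).congr'
      fun i z => by simp only [Function.comp, sh_eq]; abel
  obtain ⟨C, c0, hC⟩ := (((oj_comp g1 f).add (oj_rot (fun i => i.1.2.2.1.2) g)).add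
    (oj_rot (fun i => i.1.2.2.1.2) (oj_rot (fun i => i.1.2.1.2) b))).bd
  refine ⟨C, c0, fun y G F c φ c' φ' μ p p' k =>
    (hC ⟨((y, G, F), (c, φ), (c', φ'), μ, p, p'), k⟩).congr (.of_forall fun z => ?_)⟩
  simp only [Function.comp, ← sh_sh, ← sh_sub c φ, ← sh_sub c' φ']
  abel

/-- The composition with a map near the identity. -/
theorem mid (x : ℝ) : ∃ C, 0 ≤ C ∧ ∀ (y : X) (b : R4 → R4) (μ : ℝ),
    y ∈ Sh x ∧ ContDiffAt ℝ ∞ b (j.J0 y) ∧ Jt n (b - id) (j.J0 y) μ →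
    Jt n (b ∘ j.J0 - j.J0) y (C * μ) := by
  let I := {t : X × (R4 → R4) × ℝ // t.1 ∈ Sh x ∧ ContDiffAt ℝ ∞ t.2.1 (j.J0 t.1) ∧
    Jt n (t.2.1 - id) (j.J0 t.1) t.2.2}
  have a : Oj n (fun i : I => i.1.1) (fun _ => j.J0) 1 :=
    Oj.fix (shell_cpt x) (fun y hy => j0_cd h hy.1) fun i => i.2.1
  have f := Oj.of (J := I) (fun i => i.2.2.1.sub contDiffAt_id) fun i => i.2.2.2
  obtain ⟨C, c0, hC⟩ := (oj_comp (oj_z a) f).bd
  exact ⟨C, c0, fun y b μ k => hC ⟨(y, b, μ), k⟩⟩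

/-- The inverse chart as a function of the scale and of the rotation. -/
def Iq (M a : ℝ) (σ : Bool) (w : (ℝ × (Fin 3 → Fin 3 → ℝ)) × R4) : R4 :=
  iq M a σ ⟨0, 0, w.1.1, w.1.2⟩ w.2

def one3 : ℝ × (Fin 3 → Fin 3 → ℝ) := (1, (1 : Matrix (Fin 3) (Fin 3) ℝ))

omit h in
theorem Iq_one (M a : ℝ) (w : R4) : Iq M a σ (one3, w) = ci M a σ w := by
  simp [Iq, iq, inv_eq, one3]

theorem ci_cd {w : R4} (hw : w ∈ DE j.M j.a σ) : ContDiffAt ℝ ∞ (ci j.M j.a σ) w :=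
  (isCh (h.hG.par _ (p0_mem h)).2.1 σ).back.smooth.contDiffAt ((open_DE σ).mem_nhds hw)

theorem Iq_cd {w : (ℝ × (Fin 3 → Fin 3 → ℝ)) × R4} (h1 : w.1.1 ≠ 0) (hw : w.2 ∈ DE j.M j.a σ) :
    ContDiffAt ℝ ∞ (Iq j.M j.a σ) w := by
  have c := (ci_cd h σ hw).comp w contDiffAt_snd
  have r : ∀ a b, ContDiffAt ℝ ∞ (fun w : (ℝ × (Fin 3 → Fin 3 → ℝ)) × R4 => w.1.2 a b) w :=
    fun a b => by fun_prop
  have k := fun b => (((r 0 b).mul c.snd.fst).add ((r 1 b).mul c.snd.snd.fst)).add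
    ((r 2 b).mul c.snd.snd.snd)
  exact ((c.fst.div contDiffAt_fst.fst h1).prodMk ((k 0).prodMk ((k 1).prodMk (k 2)))).congr_of_eventuallyEq
    (.of_forall fun w => inv_eq _ _)

omit h in
theorem sh_dl {y : X} {x x1 : ℝ} (hy : y ∈ Sh 4) (hx : |x| ≤ x1) : dl σ x y ∈ Sh (x1 + 4) :=
  ⟨dl_ne hy.1, by
    rw [← abs_lg σ, lg_dl hy.1]
    exact (abs_add_le _ _).trans (add_le_add hx ((abs_lg σ y).trans_le hy.2))⟩

omit h in
theorem near_one {q : Par} {M a μ : ℝ} (k : q.Near M a μ) :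
    ‖((q.l, q.R) : ℝ × (Fin 3 → Fin 3 → ℝ)) - one3‖ ≤ μ := by
  have m := ((abs_nonneg _).trans_lt k.1).le
  exact max_le k.2.2.1.le ((pi_norm_le_iff_of_nonneg m).2 fun a =>
    (pi_norm_le_iff_of_nonneg m).2 fun b => (k.2.2.2.2 a b).le)

omit h in
theorem pp_le {q : Par} {μ : ℝ} (k : q.Near j.M j.a μ) : ‖j.p0 - pp j.M q‖ ≤ μ := by
  rw [norm_sub_rev]
  exact max_le k.1.le (max_le k.2.1.le (by simpa [pp, Jd.p0] using ((abs_nonneg _).trans_lt k.1).le))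

omit h in
theorem pp_kp {q : Par} {μ : ℝ} (k : q.Near j.M j.a μ) (hμ : μ ≤ j.ε0 / 2) : pp j.M q ∈ Kp j :=
  mem_closedBall_iff_norm'.2 ((pp_le k).trans hμ)

theorem lip_iq {I : Type} {y : I → X} {u v : I → X → R4} {q : I → Par} {μ : I → ℝ} {A : Set R4}
    {ρ : ℝ} (hA : IsCompact A) (hρ : cthickening ρ A ⊆ DE j.M j.a σ) (hv : ∀ i, v i (y i) ∈ A)
    (hq : ∀ i, (q i).Near j.M j.a (μ i)) (h1 : ∀ i, μ i ≤ 1 / 2)
    (h2 : ∀ i, ‖u i (y i) - v i (y i)‖ ≤ ρ) (a : Oj n y v 1)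
    (d : Oj n y (fun i z => u i z - v i z) μ) :
    Oj n y (fun i z => iq j.M j.a σ (q i) (u i z) - ci j.M j.a σ (v i z)) μ := by
  have a' : Oj n y u 1 := ((d.mono le_rfl fun i => (h1 i).trans (by norm_num)).add a).congr'
    fun i z => (sub_add_cancel _ _).symm
  have s : ∀ i, segment ℝ ((((q i).l, (q i).R) : ℝ × (Fin 3 → Fin 3 → ℝ)), u i (y i))
      (one3, v i (y i)) ⊆ closedBall one3 (1 / 2) ×ˢ cthickening ρ A := fun i =>
    (((convex_closedBall one3 (1 / 2)).prod (convex_closedBall (v i (y i)) ρ)).segment_subset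
      (mk_mem_prod (mem_closedBall_iff_norm.2 ((near_one (hq i)).trans (h1 i)))
        (mem_closedBall_iff_norm.2 (h2 i)))
      (mk_mem_prod (mem_closedBall_self (by norm_num))
        (mem_closedBall_self ((norm_nonneg _).trans (h2 i))))).trans
      (prod_mono Subset.rfl (closedBall_subset_cthickening (hv i) ρ))
  have o : Os (n + 1) (fun _ : I => closedBall one3 (1 / 2) ×ˢ cthickening ρ A)
      (fun _ => Iq j.M j.a σ) 1 :=
    Oj.fix ((isCompact_closedBall _ _).prod hA.cthickening) (fun w hw => Iq_cd h σ (fun e => by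
      have : |w.1.1 - 1| ≤ 1 / 2 := (norm_fst_le _).trans (mem_closedBall_iff_norm.1 hw.1)
      rw [e] at this
      norm_num at this) (hρ hw.2)) fun i => i.2
  have d' : Oj n y (fun i z => ((((q i).l, (q i).R) : ℝ × (Fin 3 → Fin 3 → ℝ)), u i z) -
      (one3, v i z)) μ := (Oj.const d.nn ⟨1, fun i => (near_one (hq i)).trans (one_mul _).ge⟩).pair d
  exact (oj_lip (f := fun i z => ((((q i).l, (q i).R) : ℝ × (Fin 3 → Fin 3 → ℝ)), u i z))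
    (f' := fun i z => (one3, v i z)) (G := fun _ => Iq j.M j.a σ)
    (S := fun _ => closedBall one3 (1 / 2) ×ˢ cthickening ρ A) (oj_pr (oj_z a') _)
    (oj_pr (oj_z a) _) s d' o).congr' fun i z => by rw [Iq_one]; rfl

/-- Slices near the reference slice, in a bounded range. -/
theorem near (x1 : ℝ) : ∃ C ρ, 0 ≤ C ∧ 0 < ρ ∧ ∀ (y : X) (x μ : ℝ) (u : X → R4) (q : Par),
    y ∈ Sh 4 ∧ |x| ≤ x1 ∧ μ ≤ ρ ∧ q.Near j.M j.a μ ∧ ContDiffAt ℝ ∞ u (dl σ x y) ∧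
      Jt n (u - j.J0) (dl σ x y) μ →
    u (dl σ x y) ∈ DE j.M j.a σ ∧ Jt n (fun z => iq j.M j.a σ q (u (dl σ x z)) -
      sh (lam j j.p0 * x) (omm j.M j.a * (lam j j.p0 * x)) (j.Js σ (pp j.M q) z)) y (C * μ) := by
  have hA : IsCompact (j.J0 '' Sh (x1 + 4)) := (shell_cpt _).image_of_continuousOn
    fun y hy => (j0_cd h hy.1).continuousAt.continuousWithinAt
  obtain ⟨ρ, ρ0, hρ⟩ := hA.exists_cthickening_subset_open (open_DE σ)
    (image_subset_iff.2 fun y hy => (j0_ci h hy.1 σ).1)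
  obtain ⟨r, r0, r1, r2, r3⟩ : ∃ r > 0, r ≤ ρ ∧ r ≤ 1 / 2 ∧ r ≤ j.ε0 / 2 :=
    ⟨min ρ (min (1 / 2) (j.ε0 / 2)), lt_min ρ0 (lt_min (by norm_num) (half_pos h.hG.pos0.2.1)),
      min_le_left _ _, (min_le_right _ _).trans (min_le_left _ _),
      (min_le_right _ _).trans (min_le_right _ _)⟩
  let I := {t : X × (ℝ × ℝ) × (X → R4) × Par // t.1 ∈ Sh 4 ∧ |t.2.1.1| ≤ x1 ∧ t.2.1.2 ≤ r ∧
    t.2.2.2.Near j.M j.a t.2.1.2 ∧ ContDiffAt ℝ ∞ t.2.2.1 (dl σ t.2.1.1 t.1) ∧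
    Jt n (t.2.2.1 - j.J0) (dl σ t.2.1.1 t.1) t.2.1.2}
  have m := fun i : I => sh_dl σ i.2.1 i.2.2.1
  have d : Oj n (fun i : I => i.1.1) (fun i z => dl σ i.1.2.1.1 z - dl σ i.1.2.1.1 i.1.1) 1 :=
    ((Oj.const (v := fun i : I => Real.exp (sgn σ * i.1.2.1.1)) (fun _ => zero_le_one)
      ⟨Real.exp x1, fun i => by
        rw [Real.norm_of_nonneg (Real.exp_pos _).le, mul_one, Real.exp_le_exp]
        have := abs_le.1 i.2.2.1
        cases σ <;> simp only [sgn, cond_true, cond_false] <;> linarith⟩).smulr oj_id).congr'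
      fun i z => (smul_sub _ _ _).symm
  have a := oj_comp d (Oj.fix (shell_cpt (x1 + 4)) (fun y hy => j0_cd h hy.1) m)
  have u := oj_comp d (Oj.of (J := I) (fun i => i.2.2.2.2.2.1.sub (j0_cd h (m i).1))
    fun i => i.2.2.2.2.2.2)
  have v : ∀ i : I, ‖i.1.2.2.1 (dl σ i.1.2.1.1 i.1.1) - j.J0 (dl σ i.1.2.1.1 i.1.1)‖ ≤ ρ :=
    fun i => (P354YI.Jb.zero i.2.2.2.2.2.2).trans (i.2.2.2.1.trans r1)
  have l := lip_iq h σ n (y := fun i : I => i.1.1) (q := fun i => i.1.2.2.2)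
    (u := fun i z => i.1.2.2.1 (dl σ i.1.2.1.1 z)) (v := fun i z => j.J0 (dl σ i.1.2.1.1 z))
    (μ := fun i => i.1.2.1.2) hA hρ (fun i => mem_image_of_mem _ (m i))
    (fun i => i.2.2.2.2.1) (fun i => i.2.2.2.1.trans r2) v a u
  have b := js_b h σ n (I := I) (fun i => i.2.1) (fun _ => p0_kp h)
    (fun i => pp_kp i.2.2.2.2.1 (i.2.2.2.1.trans r3)) fun i => pp_le i.2.2.2.2.1
  obtain ⟨C, c0, hC⟩ := (l.add (oj_rot (fun i : I => omm j.M j.a * (lam j j.p0 * i.1.2.1.1)) b)).bd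
  refine ⟨C, r, c0, r0, fun y x μ u q k => ⟨hρ (closedBall_subset_cthickening
    (mem_image_of_mem _ (sh_dl σ k.1 k.2.1)) ρ (mem_closedBall_iff_norm.2
      (v ⟨(y, (x, μ), u, q), k⟩))), (hC ⟨(y, (x, μ), u, q), k⟩).congr ?_⟩⟩
  filter_upwards [isOpen_ne.mem_nhds k.1.1] with z hz
  rw [(j0_ci h (dl_ne hz) σ).2.1, js_dl h (p0_mem h) hz, ← sh_sub (lam j j.p0 * x)]
  exact (sub_add_sub_cancel _ _ _).symm

end Vale.Agent.P354CH
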