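import Vale.Agent.P354CH.Lk

/-!
LOCS: the location of the image of a slice.
-/

open scoped ContDiff
open Set Filter Topology Metric Matrix

noncomputable section

namespace Vale.Agent.P354CH

open Vale.Agent.P354n (R4)
open Vale.Agent.P354I (X P3 rm rp)
open Vale.Agent.P354R (omm)
open Vale.Agent.P354D (sgn)
open Vale.Agent.P354XE (xs pt rd ch kr D0 Par)
open Vale.Agent.P354XM (sh rd_sh sh_sh)
open Vale.Agent.P354XA (linL rd_lin hor)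
open Vale.Agent.P354XU (Jt)
open Vale.Agent.P354YR (ci DE DI isCh open_DE open_DI)
open Vale.Agent.P354YI (Jb)
open Vale.Agent.P354YJ (dl_ne lg_dl abs_lg shell_cpt lam p0_mem js_bh js_dl j0_ci j0_cd rd_inv
  time_pos ev2 chain)
open Vale.Agent.P354YM

section
variable {M a : ℝ} (hM : |a| < M) {σ : Bool} {q : Par} (h : q.Rᵀ * q.R = 1) (hl : q.l ≠ 0) {w : R4}
include hM h hl

theorem cq_iq (hw : w ∈ DE M a σ) : cq M a σ q (iq M a σ q w) = w := by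
  rw [cq, iq, Function.comp, Function.comp, lin_inv h hl, (isCh hM σ).right w hw]

theorem iq_cq (hw : w ∈ DI M a) : cq M a σ q w ∈ DE M a σ ∧ iq M a σ q (cq M a σ q w) = w := by
  have m : q.lin w ∈ DI M a := lt_of_lt_of_eq hw (rd_lin h w).symm
  exact ⟨(isCh hM σ).maps m, by
    rw [cq, iq, Function.comp, Function.comp, (isCh hM σ).left _ m, inv_lin h hl]⟩

omit hl in
theorem rd_iq (hw : w ∈ DE M a σ) : rd (iq M a σ q w) = kr M a w := by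
  have c := isCh hM σ
  rw [iq, Function.comp, rd_inv h, ← c.rad _ (c.back.maps hw), c.right w hw]

end

/-- The image of a slice in the far part of an end. -/
theorem far {j : Jd} (h : j.Is) (σ : Bool) (n : ℕ) : ∃ C, 0 ≤ C ∧ ∀ (q q' : Par) (J : X → R4)
    (b : R4 → R4) (y : X) (x c φ c' φ' μ : ℝ), y ∈ Sh 4 → pp j.M q ∈ Kp j → pp j.M q' ∈ Kp j →
    q.Rᵀ * q.R = 1 → q.l ≠ 0 → μ ≤ 1 → |q'.M - q.M| ≤ μ → |q'.a - q.a| ≤ μ →
    ContDiffAt ℝ ∞ J (dl σ x y) → J (dl σ x y) ∈ DE j.M j.a σ →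
    ContDiffAt ℝ ∞ b (J (dl σ x y)) → b (J (dl σ x y)) ∈ DE j.M j.a σ →
    Jt n (fun z => iq j.M j.a σ q (J (dl σ x z)) - sh c φ (j.Js σ (pp j.M q) z)) y μ →
    Jt n (iq j.M j.a σ q' ∘ b ∘ cq j.M j.a σ q - sh c' φ') (iq j.M j.a σ q (J (dl σ x y))) μ →
    Jt n (fun z => iq j.M j.a σ q' (b (J (dl σ x z))) -
      sh (c' + c) (φ' + φ) (j.Js σ (pp j.M q') z)) y (C * μ) := by
  obtain ⟨C, c0, hC⟩ := step h σ n
  have hM : |j.a| < j.M := (h.hG.par _ (p0_mem h)).2.1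
  refine ⟨C, c0, fun q q' J b y x c φ c' φ' μ hy hp hp' hR hl h1 dM da sJ mJ sb mb k k' => ?_⟩
  have s1 := sJ.comp y (dl_cd σ x).contDiffAt
  have e := cq_iq hM hR hl mJ
  have ic := isCh hM σ
  have s2 : ContDiffAt ℝ ∞ (cq j.M j.a σ q) (iq j.M j.a σ q (J (dl σ x y))) :=
    (ic.pull.smooth.contDiffAt (open_DI.mem_nhds (by
      rw [iq, Function.comp, lin_inv hR hl]
      exact ic.back.maps mJ))).comp _ (linL q).contDiff.contDiffAt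
  have s3 := ((inv_cd q').contDiffAt.comp _ (ci_cd h σ mb)).comp _ sb
  rw [← e] at s3
  refine Jb.congr (hC y (fun z => iq j.M j.a σ q (J (dl σ x z))) _ c φ c' φ' μ _ _
    ⟨hy, hp, hp', h1, ?_, (inv_cd q).contDiffAt.comp y ((ci_cd h σ mJ).comp y s1),
      s3.comp _ s2, k, k'⟩) ?_
  · rw [norm_sub_rev]
    exact max_le dM (max_le da (by simpa [pp] using (abs_nonneg _).trans dM))
  · filter_upwards [s1.continuousAt.eventually ((open_DE σ).mem_nhds mJ)] with z hz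
    exact congrArg (fun w => iq j.M j.a σ q' (b w) - _) (cq_iq hM hR hl hz).symm

/-- An exact slice is located without error. -/
theorem exa {j : Jd} (h : j.Is) {σ : Bool} {n : ℕ} {J : X → R4} {q : Par} {c φ Z x e : ℝ}
    (hp : pp j.M q ∈ ball j.p0 j.ε0) (hR : q.Rᵀ * q.R = 1) (hl : q.l ≠ 0) (he : 0 ≤ e)
    (hr : ∀ y ≠ 0, rm j.M j.a < rd (j.Js σ (pp j.M q) y)) (hx : Z + 5 ≤ x)
    (k : ∀ y ≠ 0, Z ≤ lg σ y → J y = cq j.M j.a σ q (sh c φ (j.Js σ (pp j.M q) y))) :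
    ∃ c' φ', LocAt j n J q σ {0}ᶜ (Icc (-4) 0) x c' φ' e := by
  have hM : |j.a| < j.M := (h.hG.par _ (p0_mem h)).2.1
  have K : ∀ z ≠ 0, -5 < lg σ z → J (dl σ x z) ∈ DE j.M j.a σ ∧
      iq j.M j.a σ q (J (dl σ x z)) - sh (c + lam j (pp j.M q) * x)
        (φ + omm q.M q.a * (lam j (pp j.M q) * x)) (j.Js σ (pp j.M q) z) = 0 := fun z hz k1 => by
    rw [k _ (dl_ne hz) (by rw [lg_dl hz]; linarith), js_dl h hp hz, sh_sh, sub_eq_zero]
    exact iq_cq hM hR hl (lt_of_lt_of_eq (hr z hz) (rd_sh ..).symm)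
  refine ⟨c + lam j (pp j.M q) * x, φ + omm q.M q.a * (lam j (pp j.M q) * x), fun y hy hl _ =>
    ⟨(K y hy (by linarith [hl.1])).1, Jb.congr
    ((P354YI.jb_const n (0 : R4) y).mono le_rfl (norm_zero.trans_le he)) ?_⟩⟩
  have c : ContinuousAt (lg σ) y :=
    continuousAt_const.mul (continuous_norm.continuousAt.log (norm_ne_zero_iff.2 hy))
  filter_upwards [isOpen_ne.mem_nhds hy, c.eventually_const_lt (show -5 < lg σ y by linarith [hl.1])]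
    with z h1 h2 using (K z h1 h2).2

theorem wt_le {s x c : ℝ} (hs : 0 ≤ s) (hx : 0 ≤ x) (h : (1 + x) / 4 ≤ 1 + c) :
    (1 + c) ^ (-s) ≤ 4 ^ s * (1 + x) ^ (-s) := by
  refine (Real.rpow_le_rpow_of_nonpos (by positivity) h (neg_nonpos.2 hs)).trans_eq ?_
  rw [Real.div_rpow (by positivity) (by positivity), Real.rpow_neg (x := 4) (by positivity),
    div_inv_eq_mul, mul_comm]

theorem ex_y (σ : Bool) : ∃ y : X, y ≠ 0 ∧ lg σ y = 0 :=
  ⟨EuclideanSpace.single 0 1, by simp, by simp [lg]⟩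

theorem near_mono {q : Par} {M a e e' : ℝ} (h : q.Near M a e) (k : e ≤ e') : q.Near M a e' :=
  ⟨h.1.trans_le k, h.2.1.trans_le k, h.2.2.1.trans_le k, h.2.2.2.1,
    fun i j => (h.2.2.2.2 i j).trans_le k⟩

theorem sh_of {σ : Bool} {y : X} {I : Set ℝ} (hI : I ⊆ Icc (-4) 4) (hy : y ≠ 0) (h : lg σ y ∈ I) :
    y ∈ Sh 4 := ⟨hy, (abs_lg σ y).symm.trans_le (abs_le.2 (hI h))⟩

/-- The image of the reference slice. -/
theorem part1 {j : Jd} (h : j.Is) (n : ℕ) {s x0 e' : ℝ} (hs : 0 ≤ s) (h0 : 0 ≤ x0) (he : 0 < e') :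
    ∀ᶠ e in 𝓝[>] (0 : ℝ), ∀ K O (q : Bool → Par) b, (∀ σ, (q σ).Near j.M j.a e) → IsOpen O →
      K ⊆ O → ContDiffOn ℝ ∞ b O → LocC n e (j.J0 '' Sh (x0 + 5)) K b →
      MapsTo j.J0 (Rg fun _ => x0 + 5) K → Adm (j.w x0) s n e' (Rg fun _ => x0 + 5) (b ∘ j.J0) q ∧
        Last (j.w x0) s n e' (fun _ => x0 + 5) (b ∘ j.J0) q := by
  obtain ⟨C, c0, hC⟩ := mid h n (x0 + 5)
  choose D ρ d0 ρ0 hD using fun σ => near h σ n (x0 + 9)
  have w0 : 0 < e' * (1 + (x0 + 9)) ^ (-s) := by positivity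
  filter_upwards [self_mem_nhdsWithin, ev_mul C he, eventually_all.2 fun σ =>
    (ev_mul (C + 1) (ρ0 σ)).and (ev_mul (D σ * (C + 1)) w0)] with e e0 e1 e2 K O q b hq hO hK hb
    hL hm
  have e0 : 0 < e := e0
  have sb : ∀ y ∈ Rg fun _ => x0 + 5, ContDiffAt ℝ ∞ b (j.J0 y) := fun y hy =>
    hb.contDiffAt (hO.mem_nhds (hK (hm hy)))
  have m : ∀ y ∈ Rg fun _ => x0 + 5, Jt n (b ∘ j.J0 - j.J0) y (C * e) := fun y hy => by
    have : y ∈ Sh (x0 + 5) := ⟨hy.1, abs_le.2 ⟨by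
      have := hy.2 false
      simp only [lg, sgn, cond_false] at this
      linarith, by simpa [lg, sgn] using (hy.2 true).le⟩⟩
    exact hC y b e ⟨this, sb y hy, hL _ (mem_image_of_mem _ this) (hm hy)⟩
  have H : ∀ σ x (I : Set ℝ), I ⊆ Icc (-4) 4 → x0 ≤ x → ∃ c φ, LocAt j n (b ∘ j.J0) (q σ) σ
      (Rg fun _ => x0 + 5) I x c φ (e' * (1 + x) ^ (-s)) := fun σ x I hI hx => by
    refine ⟨lam j j.p0 * x, omm j.M j.a * (lam j j.p0 * x), fun y hy hl k => ?_⟩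
    have k1 := k.2 σ
    rw [lg_dl hy] at k1
    have k2 : x ≤ x0 + 9 := by linarith [(hI hl).1]
    have := hD σ y x _ (b ∘ j.J0) (q σ) ⟨sh_of hI hy hl, abs_le.2 ⟨by linarith, k2⟩, (e2 σ).1,
      near_mono (hq σ) (by nlinarith), (sb _ k).comp _ (j0_cd h k.1),
      Jb.mono (m _ k) le_rfl (by nlinarith)⟩
    refine ⟨this.1, Jb.mono this.2 le_rfl ((mul_assoc _ _ _).symm.trans_le ((e2 σ).2.trans ?_))⟩
    exact mul_le_mul_of_nonneg_left (Real.rpow_le_rpow_of_nonpos (x := 1 + x) (by linarith)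
      (by linarith) (neg_nonpos.2 hs)) he.le
  exact ⟨⟨fun y hy => ((sb y hy).comp y (j0_cd h hy.1)).contDiffWithinAt,
    fun y hy _ => Jb.mono (m y hy) le_rfl e1,
    fun σ x hx => H σ x _ (Icc_subset_Icc (by norm_num) (by norm_num)) hx⟩,
    fun σ => H σ _ _ (Icc_subset_Icc le_rfl (by norm_num)) (by linarith)⟩

/-- The image of an admissible slice. -/
theorem part2 {j : Jd} (h : j.Is) (n : ℕ) {s B D t1 r0 x0 e' : ℝ} (hs : 0 ≤ s)
    (hB : ∀ σ, ∀ p ∈ Kp j, ∀ y ∈ Sh 4, |(j.Js σ p y).1| ≤ B) (h0 : 0 ≤ x0)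
    (h1 : 2 * (t1 + (D + B + 1)) ≤ x0) (h2 : 4 * (D + B + 1) ≤ x0) (he : 0 < e') :
    ∀ᶠ e in 𝓝[>] (0 : ℝ), ∀ (P : Pm) K O (q q' : Bool → Par) b J Z, P.M = j.M → P.a = j.a →
      P.s = s → (∀ σ, (q σ).Near j.M j.a e ∧ (q' σ).Near j.M j.a e) → IsOpen O → K ⊆ O →
      ContDiffOn ℝ ∞ b O → LocD P r0 t1 (B + 1) n e K q q' b → ContDiffOn ℝ ∞ J {0}ᶜ →
      MapsTo J (Rg Z) K → (∀ y ≠ 0, (r0 ≤ kr j.M j.a (J y) ∧ kr j.M j.a (J y) ≤ 4 * j.M) ∧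
        ∀ σ, x0 ≤ lg σ y → lg σ y / 2 - D ≤ (iq j.M j.a σ (q σ) (J y)).1) →
      ∀ σ x I c φ, I ⊆ Icc (-4) 4 → 0 ∈ I → x0 ≤ x →
        LocAt j n J (q σ) σ {0}ᶜ I x c φ (e * (1 + x) ^ (-s)) →
        ∃ c' φ', LocAt j n (b ∘ J) (q' σ) σ (Rg Z) I x c' φ' (e' * (1 + x) ^ (-s)) := by
  choose C c0 hC using fun σ => far h σ n
  have hM : |j.a| < j.M := (h.hG.par _ (p0_mem h)).2.1
  have p4 : (1 : ℝ) ≤ 4 ^ s := Real.one_le_rpow (by norm_num) hs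
  filter_upwards [self_mem_nhdsWithin, ev_mul (4 ^ s) one_half_pos,
    ev_mul 1 (half_pos h.hG.pos0.2.1), eventually_all.2 fun σ => ev_mul (C σ * 4 ^ s) he] with e e0
    e1 e2 e3 P K O q q' b J Z pM pa ps hq hO hK hb hL hJ hm hc σ x I c φ hI i0 hx k
  have e0 : 0 < e := e0
  simp only [LocD, pM, pa, ps] at hL
  have w0 : 0 ≤ (1 + x) ^ (-s) := Real.rpow_nonneg (by linarith) _
  have w1 : (1 + x) ^ (-s) ≤ 1 := Real.rpow_le_one_of_one_le_of_nonpos (by linarith) (by linarith)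
  have e4 : e ≤ 1 / 2 := by nlinarith
  have kp := pp_kp (hq σ).1 ((one_mul e).symm.trans_le e2)
  have hR := (hq σ).1.2.2.2.1
  have hl : (q σ).l ≠ 0 := by linarith [(abs_lt.1 (hq σ).1.2.2.1).1] |> fun k : 0 < (q σ).l => k.ne'
  have T : ∀ y ≠ 0, lg σ y ∈ I → |(iq j.M j.a σ (q σ) (J (dl σ x y))).1 - c| ≤ B + 1 :=
    fun y hy hl => by
      have k1 := abs_le.1 ((norm_fst_le _).trans (Jb.zero (k y hy hl (dl_ne hy)).2))
      have k2 := abs_le.1 (hB σ _ kp y (sh_of hI hy hl))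
      simp only [Prod.fst_sub, sh] at k1
      rw [abs_le]
      constructor <;> nlinarith
  obtain ⟨y0, n0, l0⟩ := ex_y σ
  have k1 := (abs_le.1 (T y0 n0 (l0 ▸ i0))).2
  have k2 := (hc (dl σ x y0) (dl_ne n0)).2 σ (by rw [lg_dl n0]; linarith)
  rw [lg_dl n0, l0] at k2
  obtain ⟨c', φ', L⟩ := hL σ c (by linarith)
  have w2 : e * (1 + c) ^ (-s) ≤ 4 ^ s * e * (1 + x) ^ (-s) :=
    (mul_le_mul_of_nonneg_left (wt_le hs (h0.trans hx) (by linarith)) e0.le).trans_eq (by ring)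
  refine ⟨c' + c, φ' + φ, fun y hy hl' m => ?_⟩
  obtain ⟨m1, m2⟩ := k y hy hl' (dl_ne hy)
  have r := (hc _ (dl_ne (σ := σ) (x := x) hy)).1
  rw [← rd_iq hM hR m1] at r
  have ce := cq_iq hM hR hl m1
  obtain ⟨l1, l2, l3, l4⟩ := L _ (T y hy hl') r.1 r.2 (ce.symm ▸ hm m)
  rw [ce] at l3
  refine ⟨l3, Jb.mono (hC σ (q σ) (q' σ) J b y x c φ c' φ' _ (sh_of hI hy hl') kp
    (pp_kp (hq σ).2 ((one_mul e).symm.trans_le e2)) hR hl (by nlinarith) (l1.trans w2) (l2.trans w2)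
    (hJ.contDiffAt (isOpen_ne.mem_nhds (dl_ne hy))) m1 (hb.contDiffAt (hO.mem_nhds (hK (hm m)))) l3
    (Jb.mono m2 le_rfl (mul_le_mul_of_nonneg_right (by nlinarith) w0)) (Jb.mono l4 le_rfl w2))
    le_rfl ?_⟩
  rw [← mul_assoc, ← mul_assoc]
  exact mul_le_mul_of_nonneg_right (e3 σ) w0

/-- **LOCS.** -/
theorem locs : LOCS := fun j r1 r0 r2 s δ h hB hR n t1 => by
  obtain ⟨D, hD⟩ := chain j r1 r0 r2 s δ h hB hR
  obtain ⟨B, bB⟩ := ex_B h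
  obtain ⟨e2, e2p, E2⟩ := Metric.eventually_nhds_iff.1 (ev2 h hR)
  have hs := (zero_lt_one.trans hB.hs).le
  have r4 : rp j.M j.a ≤ 4 * j.M := by linarith [(hor hB.lt).1, (hor hB.lt).2.2.2.1]
  refine ⟨B + 1, max 1 (max (2 * (t1 + (D + B + 1))) (4 * (D + B + 1))), fun x0 hx => ?_⟩
  simp only [ge_iff_le, max_le_iff] at hx
  have h0 := zero_le_one.trans hx.1
  obtain ⟨e0, e0p, hc⟩ := hD x0 hx.1
  refine ⟨j.J0 '' Sh (x0 + 5), (shell_cpt _).image_of_continuousOn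
    fun y hy => (j0_cd h hy.1).continuousAt.continuousWithinAt, forall_mem_image.2 fun y hy => ?_,
    e0, e0p, fun e' he => ?_⟩
  · obtain ⟨k1, -, k2⟩ := j0_ci h hy.1 true
    have k3 := k2.trans_lt (js_bh h (p0_mem h) hy.1 true).1.2
    have k4 := (hR y hy.1).trans_eq k2.symm
    exact ⟨⟨k1.1.1, (time_pos k1 k3).le, by linarith [hB.r1]⟩, k4.le, k3.le.trans r4⟩
  obtain ⟨e, ⟨⟨p1, p2⟩, ⟨l0, l1⟩, l2⟩, ep⟩ := ((((part1 h n hs h0 he).and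
    (part2 h n (r0 := r0) hs bB h0 hx.2.1 hx.2.2 he)).and (((ev_mul 1 e0p).and (ev_mul 1 e2p)).and
    (ev_mul 1 one_half_pos))).and self_mem_nhdsWithin).exists
  rw [one_mul] at l0 l1 l2
  refine ⟨e, ep, fun P K O q q' b pM pa ps hq hO hK hb hC hL =>
    ⟨p1 K O q' b (fun σ => (hq σ).2) hO hK hb hC, fun J Z' hA hm => ?_⟩⟩
  have c := hc n e0 le_rfl _ J q (fun σ => near_mono (hq σ).1 l0)
    ⟨fun _ h => h, fun _ _ hy _ _ => dl_ne hy⟩ hA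
  have H := p2 P K O q q' b J Z' pM pa ps hq hO hK hb hL hA.sm hm fun y hy =>
    ⟨⟨by linarith [(c y hy).1.2.1, hB.r1], (c y hy).1.2.2.le.trans r4⟩,
      fun σ k => ((c y hy).2 σ (by linarith)).1⟩
  refine ⟨fun σ x hx c φ => H σ x _ c φ (Icc_subset_Icc (by norm_num) (by norm_num)) (by simp) hx,
    fun Z hE hZ σ => ?_⟩
  obtain ⟨c, φ, k⟩ := hE σ
  have F := @E2 (pp j.M (q σ), 0) (by
    simp only [Prod.dist_eq, pp, Jd.p0, Real.dist_eq, max_lt_iff, sub_self, abs_zero]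
    exact ⟨⟨(hq σ).1.1.trans_le l1, (hq σ).1.2.1.trans_le l1, e2p⟩, e2p⟩)
  have z0 : 0 ≤ Z' σ := by linarith [hZ σ]
  obtain ⟨c', φ', k'⟩ := exa h (n := n) (e := e * (1 + Z' σ) ^ (-s)) F.1.1 (hq σ).1.2.2.2.1
    (by linarith [(abs_lt.1 (hq σ).1.2.2.1).1] : 0 < (q σ).l).ne'
    (mul_nonneg ep.le (by positivity)) (fun y hy => by
      have := (F.2 (dl σ (-lg σ y) y) ⟨dl_ne hy, by rw [← abs_lg σ, lg_dl hy]; simp⟩ σ).1
      rw [js_dl h F.1.1 hy, rd_sh] at this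
      linarith [hB.r1]) (hZ σ).2 k
  exact H σ _ _ c' φ' (Icc_subset_Icc le_rfl (by norm_num)) (by simp) (by linarith [hZ σ]) k'

end Vale.Agent.P354CH
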