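import Vale.Agent.P354SM.NDefs
import Vale.Agent.P354CH.Lj

/-!
RZB, RZS, RZD: bounds for a metric in the ray form from bounds for its components.
-/

set_option maxSynthPendingDepth 3

open scoped ContDiff
open Set Filter Topology

noncomputable section

namespace Vale.Agent.P354CH

open Vale.Agent.P354n (R4)
open Vale.Agent.P354R (Met)
open Vale.Agent.P354RC (B2 Rm dC bs cv inv_of_inj)
open Vale.Agent.P354XD (tb rp_tb)
open Vale.Agent.P354XE (Tw Bd)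
open Vale.Agent.P354YI (Oj GM GM_ap el tb_eq)
open Vale.Agent.P354YQ (SA JB)
open Vale.Agent.P354SA
open Vale.Agent.P354SM (Shp RZB RZS RZD)

variable {J : Type} {m : ℕ} {x : J → R4} {f f' k k' : J → R4 → ℝ} {μ : J → ℝ} {g g' : J → Tw}

theorem rz_inv (h : Oj m x f 1) {c : ℝ} (hc : 0 < c) (l : ∀ j, c ≤ f j (x j)) :
    Oj m x (fun j y => (f j y)⁻¹) 1 :=
  let ⟨C, _, hC⟩ := h.val
  oj_comp (oj_z h) (Oj.fix (K := Icc c C) isCompact_Icc (F := fun t : ℝ => t⁻¹)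
    (fun _ ht => contDiffAt_inv ℝ (hc.trans_le ht.1).ne')
    fun j => ⟨l j, (le_abs_self _).trans (by simpa using hC j)⟩)

/-- Two bounded families with a small difference. -/
structure Df (m : ℕ) (x : J → R4) (μ : J → ℝ) (f f' : J → R4 → ℝ) : Prop where
  l : Oj m x f 1
  r : Oj m x f' 1
  d : Oj m x (fun j y => f j y - f' j y) μ

theorem Df.add (h : Df m x μ f f') (h' : Df m x μ k k') :
    Df m x μ (fun j y => f j y + k j y) fun j y => f' j y + k' j y :=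
  ⟨h.l.add h'.l, h.r.add h'.r, (h.d.add h'.d).congr' fun _ _ => by ring⟩

theorem Df.sub (h : Df m x μ f f') (h' : Df m x μ k k') :
    Df m x μ (fun j y => f j y - k j y) fun j y => f' j y - k' j y :=
  ⟨h.l.sub h'.l, h.r.sub h'.r, (h.d.sub h'.d).congr' fun _ _ => by ring⟩

theorem Df.mul (h : Df m x μ f f') (h' : Df m x μ k k') :
    Df m x μ (fun j y => f j y * k j y) fun j y => f' j y * k' j y :=
  ⟨h.l.smull h'.l, h.r.smull h'.r, ((h.d.smull h'.l).add (h.r.smulr h'.d)).congr' fun _ _ => by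
    simp only [smul_eq_mul]
    ring⟩

theorem Df.cm (c : ℝ) (h : Df m x μ f f') :
    Df m x μ (fun j y => c * f j y) fun j y => c * f' j y :=
  ⟨(Oj.cst c).smulr h.l, (Oj.cst c).smulr h.r, ((Oj.cst c).smulr h.d).congr' fun _ _ => by
    simp only [smul_eq_mul]
    ring⟩

theorem Df.inv (h : Df m x μ f f') {c : ℝ} (hc : 0 < c) (l : ∀ j, c ≤ f j (x j))
    (l' : ∀ j, c ≤ f' j (x j)) : Df m x μ (fun j y => (f j y)⁻¹) fun j y => (f' j y)⁻¹ :=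
  ⟨rz_inv h.l hc l, rz_inv h.r hc l',
    ((h.d.smull (rz_inv h.l hc l)).smull (rz_inv h.r hc l')).neg.congr fun j => by
      filter_upwards [(h.l.sm j).continuousAt.eventually_ne (hc.trans_le (l j)).ne',
        (h.r.sm j).continuousAt.eventually_ne (hc.trans_le (l' j)).ne'] with y a b
      simp only [smul_eq_mul]
      field_simp
      ring⟩

theorem Df.map {F : Tw → R4 → ℝ} (h : Df m x μ f f') (e : ∀ j y, F (g j) y = f j y)
    (e' : ∀ j y, F (g' j) y = f' j y) : Df m x μ (fun j => F (g j)) fun j => F (g' j) :=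
  ⟨h.l.congr' e, h.r.congr' e', h.d.congr' fun j y => by rw [e, e']⟩

/-- The components of two families of metrics. -/
def Fo (m : ℕ) (x : J → R4) (μ : J → ℝ) (g g' : J → Tw) : Prop :=
  ∀ v w, Df m x μ (fun j y => g j y v w) fun j y => g' j y v w

theorem Fo.dg (h : Fo m x μ g g') : Df m x μ (fun j => dg (g j)) fun j => dg (g' j) :=
  (((h (ey 0) (ey 0)).mul (h (ey 1) (ey 1))).sub ((h (ey 0) (ey 1)).mul (h (ey 0) (ey 1)))).map
    (fun _ _ => by simp only [P354SA.dg, gm, sq]) fun _ _ => by simp only [P354SA.dg, gm, sq]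

structure Fa (m : ℕ) (x : J → R4) (μ : J → ℝ) (g g' : J → Tw) : Prop where
  ob : Fo m x μ g g'
  lo : ∃ c > 0, ∀ j, (c ≤ Om (g j) (x j) ∧ c ≤ dg (g j) (x j)) ∧
    c ≤ Om (g' j) (x j) ∧ c ≤ dg (g' j) (x j)

section
variable (h : Fa m x μ g g')
include h

theorem Fa.gi (a b : Fin 2) : Df m x μ (fun j => gi (g j) a b) fun j => gi (g' j) a b := by
  obtain ⟨c, c0, hc⟩ := h.lo
  have i := h.ob.dg.inv c0 (fun j => (hc j).1.2) fun j => (hc j).2.2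
  have n := ((h.ob (ey 0) (ey 1)).cm (-1)).mul i
  fin_cases a <;> fin_cases b
  exacts [((h.ob (ey 1) (ey 1)).mul i).map (F := fun g => P354SA.gi g 0 0) (fun _ _ => rfl)
      fun _ _ => rfl,
    n.map (F := fun g => P354SA.gi g 0 1) (fun _ _ => by simp [P354SA.gi, gm, div_eq_mul_inv])
      fun _ _ => by simp [P354SA.gi, gm, div_eq_mul_inv],
    n.map (F := fun g => P354SA.gi g 1 0) (fun _ _ => by simp [P354SA.gi, gm, div_eq_mul_inv])
      fun _ _ => by simp [P354SA.gi, gm, div_eq_mul_inv],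
    ((h.ob (ey 0) (ey 0)).mul i).map (F := fun g => P354SA.gi g 1 1) (fun _ _ => rfl)
      fun _ _ => rfl]

theorem Fa.a1 (a : Fin 2) : Df m x μ (fun j => a1 (g j) a) fun j => a1 (g' j) a :=
  (((h.gi a 0).mul (h.ob e1 (ey 0))).add ((h.gi a 1).mul (h.ob e1 (ey 1)))).map
    (F := fun g => P354SA.a1 g a) (fun _ _ => Fin.sum_univ_two _) fun _ _ => Fin.sum_univ_two _

theorem Fa.a0 : Df m x μ (fun j => a0 (g j)) fun j => a0 (g' j) := by
  obtain ⟨c, c0, hc⟩ := h.lo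
  have e : ∀ (g : Tw) y, P354SA.a0 g y = 2⁻¹ * ((P354SA.a1 g 0 y * g y e1 (ey 0) +
      P354SA.a1 g 1 y * g y e1 (ey 1) - g y e1 e1) * (g y e0 e1)⁻¹) := fun g y => by
    rw [P354SA.a0, Fin.sum_univ_two, Om]
    ring
  exact ((((((h.a1 0).mul (h.ob e1 (ey 0))).add ((h.a1 1).mul (h.ob e1 (ey 1)))).sub
    (h.ob e1 e1)).mul ((h.ob e0 e1).inv c0 (fun j => (hc j).1.1) fun j => (hc j).2.1)).cm 2⁻¹).map
    (fun _ _ => e _ _) fun _ _ => e _ _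

theorem Fa.a2 (a b : Fin 2) : Df m x μ (fun j => a2 (g j) a b) fun j => a2 (g' j) a b :=
  have e : ∀ (g : Tw) y, P354SA.a2 g a b y = 2⁻¹ * (g y e0 e1 * P354SA.gi g a b y) :=
    fun g y => by
      rw [P354SA.a2, Om]
      ring
  (((h.ob e0 e1).mul (h.gi a b)).cm 2⁻¹).map (F := fun g => P354SA.a2 g a b) (fun _ _ => e _ _)
    fun _ _ => e _ _

theorem Fa.lh : Oj m x (fun j => lh (g j)) 1 :=
  h.a0.l.pair ((Oj.cst 1).pair ((h.a1 0).l.neg.pair (h.a1 1).l.neg))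

end

theorem Fa.le {m' : ℕ} (h : Fa m x μ g g') (e : m' ≤ m) : Fa m' x μ g g' :=
  ⟨fun v w => ⟨(h.ob v w).l.le e, (h.ob v w).r.le e, (h.ob v w).d.le e⟩, h.lo⟩

theorem rz_dv (h : Oj (m + 1) x f 1) (v : R4) : Oj m x (fun j => dv v (f j)) 1 :=
  h.fd.apr (.cst v)

theorem rz_lie {V : J → R4 → R4} (h : Fo (m + 1) x μ g g') (hV : Oj (m + 1) x V 1) (a b : Fin 2) :
    Oj m x (fun j => lie (g j) (V j) a b) 1 := by
  have y : ∀ c, Oj (m + 1) x (fun j y => yc c (V j y)) 1 := fun c => by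
    fin_cases c
    exacts [hV.clm (cv 2), hV.clm (cv 3)]
  exact ((h (ey a) (ey b)).l.fd.apr hV.pred).add (.sum _ hV.nn fun c _ =>
    ((h (ey c) (ey b)).l.pred.smulr (rz_dv (y c) _)).add
      ((h (ey a) (ey c)).l.pred.smulr (rz_dv (y c) _)))

theorem rz_tb (h : Fo m x μ g g') : Oj m x (fun j => tb (g j)) 1 :=
  (Oj.sum _ (h 0 0).l.nn fun a _ => Oj.sum _ (h 0 0).l.nn fun b _ =>
    (h (bs a) (bs b)).l.clm (el ℝ a b)).congr' fun _ _ => tb_eq _ _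

theorem rz_rm {h : J → R4 → B2} {A B C D : J → R4 → R4} (hh : Oj (m + 2) x h 1)
    (hi : Oj m x (fun j y => (h j y).inverse) 1) (a : Oj m x A 1) (b : Oj m x B 1)
    (c : Oj m x C 1) (d : Oj m x D 1) :
    Oj m x (fun j y => Rm (h j) y (A j y) (B j y) (C j y) (D j y)) 1 := by
  have s : ∀ {A B C D : J → R4 → R4}, Oj m x A 1 → Oj m x B 1 → Oj m x C 1 → Oj m x D 1 →
      Oj m x (fun j y => fderiv ℝ (fderiv ℝ (h j)) y (A j y) (B j y) (C j y) (D j y)) 1 :=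
    fun a b c d => (((hh.fd.fd.apr a).apr b).apr c).apr d
  have t : ∀ {A B C D : J → R4 → R4}, Oj m x A 1 → Oj m x B 1 → Oj m x C 1 → Oj m x D 1 →
      Oj m x (fun j y => dC (h j) y (A j y) (B j y) (C j y) (D j y)) 1 := fun a b c d =>
    ((Oj.cst (2⁻¹ : ℝ)).smulr (((s a b c d).add (s a c b d)).sub (s a d b c))).congr'
      fun _ _ => by rw [dC, smul_eq_mul, div_eq_inv_mul]
  have u : ∀ {A B : J → R4 → R4}, Oj m x A 1 → Oj m x B 1 →
      Oj m x (fun j y => GM (h j) y (A j y) (B j y)) 1 := fun a b =>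
    ((hi.gm hh.pred).apr a).apr b
  have v := hh.pred.pred
  exact ((((t a b c d).sub (t b a c d)).sub ((v.apr (u b c)).apr (u a d))).add
    ((v.apr (u a c)).apr (u b d))).congr' fun _ _ => by simp only [Rm, GM_ap]

theorem df_self (h : Oj m x f 1) : Df m x 1 f f := ⟨h, h, h.sub h⟩

theorem bd_oj {D : J → Set R4} (hD : ∀ j, IsOpen (D j) ∧ x j ∈ D j)
    (s : ∀ j v w, ContDiffOn ℝ ∞ (fun y => g j y v w) (D j)) (n : ∀ j, 0 ≤ μ j)
    (hb : ∀ j, Bd m (g j) (x j) (μ j)) (v w : R4) : Oj m x (fun j y => g j y v w) μ :=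
  ⟨fun j => (s j v w).contDiffAt ((hD j).1.mem_nhds (hD j).2), n, ‖v‖ * ‖w‖, by positivity,
    fun j k hk => (hb j k hk v w).trans_eq (mul_comm _ _)⟩

theorem bd_o1 {D : J → Set R4} {B : ℝ} (hD : ∀ j, IsOpen (D j) ∧ x j ∈ D j)
    (s : ∀ j, Met (g j) (D j)) (n : 1 ≤ B) (hb : ∀ j, Bd m (g j) (x j) B) (v w : R4) :
    Oj m x (fun j y => g j y v w) 1 :=
  (bd_oj hD (fun j => (s j).smooth) (fun _ => zero_le_one.trans n) hb v w).wt (c := B)
    (fun _ => zero_le_one) fun _ => (mul_one B).ge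

theorem jb_ev (h : Oj m x f μ) (s : ∀ j, SA (f j) (x j)) :
    ∀ᶠ C in atTop, ∀ j, JB m (f j) (x j) (C * μ j) :=
  let ⟨C, _, hC⟩ := h.bd
  (eventually_ge_atTop C).mono fun _ e j =>
    ⟨s j, (hC j).mono le_rfl (mul_le_mul_of_nonneg_right e (h.nn j))⟩

section
variable {g : Tw} {D : Set R4} {z : R4}

theorem rz_ev (hD : IsOpen D) (M : Met g D) (hz : z ∈ D) (h1 : 0 < Om g z) (h2 : 0 < dg g z) :
    ∀ᶠ y in 𝓝 z, Fa 2 (fun _ : Unit => y) 1 (fun _ => g) (fun _ => g) ∧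
      Oj 0 (fun _ : Unit => y) (fun _ y => (tb g y).inverse) 1 := by
  have o : ∀ y ∈ D, Fo 2 (fun _ : Unit => y) 1 (fun _ => g) fun _ => g := fun y hy v w =>
    df_self (.fix isCompact_singleton (fun _ e => e ▸ (M.smooth v w).contDiffAt (hD.mem_nhds hy))
      fun _ => rfl)
  filter_upwards [hD.mem_nhds hz,
    continuousAt_const.eventually_lt ((o z hz e0 e1).l.sm ()).continuousAt h1,
    continuousAt_const.eventually_lt ((o z hz).dg.l.sm ()).continuousAt h2] with y a b c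
  exact ⟨⟨o y a, _, lt_min b c, fun _ => ⟨⟨min_le_left _ _, min_le_right _ _⟩, min_le_left _ _,
    min_le_right _ _⟩⟩, (Oj.inv (fun _ => inv_of_inj ((rp_tb hD M).nd y a)) ⟨_, fun _ => le_rfl⟩
    (rz_tb (o y a))).le (by omega)⟩

theorem rz_sa (hD : IsOpen D) (M : Met g D) (hz : z ∈ D) (h1 : 0 < Om g z) (h2 : 0 < dg g z) :
    SA (a0 g) z ∧ (∀ a, SA (a1 g a) z) ∧ ∀ a b, SA (a2 g a b) z :=
  have k := rz_ev hD M hz h1 h2
  ⟨k.mono fun _ k => k.1.a0.l.sm (), fun a => k.mono fun _ k => (k.1.a1 a).l.sm (),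
    fun a b => k.mono fun _ k => (k.1.a2 a b).l.sm ()⟩

theorem cl_one {f : R4 → ℝ} {c : ℝ} (h : JB m f z c) : Cl m 1 1 f z c := by
  have e : (fun ξ => f (dl 1 1 z ξ)) = fun ξ => f (z + ξ) := by simp [dl]
  rw [Cl, e]
  refine ⟨SA.comp (by simpa using h.sm) (.of (by fun_prop)), fun i hi => ?_⟩
  rw [iteratedFDeriv_comp_add_left, add_zero]
  exact h.le i hi

end

theorem rzs : RZS := fun B hB => by
  let I := {i : Tw × Set R4 × R4 // (IsOpen i.2.1 ∧ i.2.2 ∈ i.2.1) ∧ Met i.1 i.2.1 ∧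
    Bd 3 i.1 i.2.2 B ∧ B⁻¹ ≤ Om i.1 i.2.2 ∧ B⁻¹ ≤ dg i.1 i.2.2}
  have b : 0 < B⁻¹ := by positivity
  have h : Fa 3 (fun i : I => i.1.2.2) 1 (fun i => i.1.1) fun i => i.1.1 :=
    ⟨fun v w => df_self (bd_o1 (fun i => i.2.1) (fun i => i.2.2.1) hB (fun i => i.2.2.2.1) v w),
      _, b, fun i => ⟨i.2.2.2.2, i.2.2.2.2⟩⟩
  have s := fun i : I => rz_sa i.2.1.1 i.2.2.1 i.2.1.2 (b.trans_le i.2.2.2.2.1)
    (b.trans_le i.2.2.2.2.2)
  obtain ⟨C, c, c0, c1, c2⟩ := ((eventually_ge_atTop 1).and ((jb_ev h.a0.l fun i => (s i).1).and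
    ((eventually_all.2 fun a => jb_ev (h.a1 a).l fun i => (s i).2.1 a).and (eventually_all.2
      fun a => eventually_all.2 fun b => jb_ev (h.a2 a b).l fun i => (s i).2.2 a b)))).exists
  have l : C * 1 ≤ C * B ^ 2 := by gcongr; exact one_le_pow₀ hB
  refine ⟨C * B ^ 2, by linarith, fun g D z rc h1 h2 h3 h4 h5 h6 h7 => ?_⟩
  let i : I := ⟨(g, D, z), ⟨h1, h3⟩, h2, h4, h5, h6⟩
  refine ⟨(c0 i).mono l, fun a => (c1 a i).mono l, fun a b => ⟨(c2 a b i).mono l,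
    (c2 a b i).zero.trans ?_⟩⟩
  rw [le_div_iff₀ (pow_pos (zero_lt_one.trans_le h7.1) 2), Pi.one_apply, mul_one]
  gcongr
  exacts [zero_le_one.trans h7.1, h7.2]

/-- The hypotheses of RZD. -/
def Hz (B : ℝ) (i : (Tw × Tw) × Set R4 × R4 × ℝ) : Prop :=
  ((IsOpen i.2.1 ∧ i.2.2.1 ∈ i.2.1) ∧ Met i.1.1 i.2.1 ∧ Met i.1.2 i.2.1) ∧
    Bd 3 i.1.1 i.2.2.1 B ∧ Bd 3 (i.1.2 - i.1.1) i.2.2.1 i.2.2.2 ∧ i.2.2.2 ∈ Icc 0 1

theorem hz_fo {B : ℝ} (hB : 1 ≤ B) : Fo 3 (fun i : Subtype (Hz B) => i.1.2.2.1)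
    (fun i => i.1.2.2.2) (fun i => i.1.1.2) fun i => i.1.1.1 := fun v w => by
  have a := bd_o1 (fun i : Subtype (Hz B) => i.2.1.1) (fun i => i.2.1.2.1) hB (fun i => i.2.2.1) v w
  have d := bd_oj (m := 3) (g := fun i : Subtype (Hz B) => i.1.1.2 - i.1.1.1)
    (μ := fun i => i.1.2.2.2) (fun i => i.2.1.1)
    (fun i v w => (i.2.1.2.2.smooth v w).sub (i.2.1.2.1.smooth v w))
    (fun i => i.2.2.2.2.1) (fun i => i.2.2.2.1) v w
  exact ⟨(a.add (d.mono le_rfl fun i => i.2.2.2.2.2)).congr' fun _ _ => by simp, a, d⟩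

theorem rzd : RZD := fun B hB e he => by
  have o := hz_fo hB
  have b : 0 < (2 * B)⁻¹ := by positivity
  have b2 : (2 * B)⁻¹ + (2 * B)⁻¹ = B⁻¹ := by field_simp; ring
  let I := {i : Subtype (Hz B) // ((2 * B)⁻¹ ≤ Om i.1.1.2 i.1.2.2.1 ∧
    (2 * B)⁻¹ ≤ dg i.1.1.2 i.1.2.2.1) ∧ (2 * B)⁻¹ ≤ Om i.1.1.1 i.1.2.2.1 ∧
    (2 * B)⁻¹ ≤ dg i.1.1.1 i.1.2.2.1}
  have h : Fa 3 (fun i : I => i.1.1.2.2.1) (fun i => i.1.1.2.2.2) (fun i => i.1.1.1.2)
      fun i => i.1.1.1.1 := ⟨fun v w => ⟨(o v w).l.ix _, (o v w).r.ix _, (o v w).d.ix _⟩, _, b,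
        fun i => i.2⟩
  have s := fun i : I => rz_sa i.1.2.1.1.1 i.1.2.1.2.1 i.1.2.1.1.2 (b.trans_le i.2.2.1)
    (b.trans_le i.2.2.2)
  have s' := fun i : I => rz_sa i.1.2.1.1.1 i.1.2.1.2.2 i.1.2.1.1.2 (b.trans_le i.2.1.1)
    (b.trans_le i.2.1.2)
  obtain ⟨C, c0, c1, c2⟩ := ((jb_ev h.a0.d fun i => (s' i).1.sub (s i).1).and
    ((eventually_all.2 fun a => jb_ev (h.a1 a).d fun i => ((s' i).2.1 a).sub ((s i).2.1 a)).and
      (eventually_all.2 fun a => eventually_all.2 fun b => jb_ev (h.a2 a b).d fun i =>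
        ((s' i).2.2 a b).sub ((s i).2.2 a b)))).exists
  obtain ⟨A1, -, k1⟩ := (o e0 e1).d.val
  obtain ⟨A2, -, k2⟩ := o.dg.d.val
  obtain ⟨A3, -, k3⟩ := (o (ey 0) (ey 0)).d.val
  obtain ⟨μ, ⟨m1, m2, m3, m4, m5, m6⟩, m0⟩ := (((ev_mul A1 b).and ((ev_mul A2 b).and
    ((ev_mul A3 b).and ((ev_mul C he).and ((ev_mul C (by positivity : 0 < 1 / B ^ 2)).and
    (ev_mul 1 one_pos)))))).and self_mem_nhdsWithin).exists
  refine ⟨μ, m0, fun g g' D z h1 h2 h3 h4 h5 h6 h7 h8 h9 => ?_⟩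
  let j : Subtype (Hz B) := ⟨((g, g'), D, z, μ), ⟨⟨h1, h4⟩, h2, h3⟩, h5, h6, le_of_lt m0,
    by simpa using m6⟩
  have j1 : Om g z - Om g' z ≤ (2 * B)⁻¹ := (abs_sub_le_iff.1 ((k1 j).trans m1)).2
  have j2 : dg g z - dg g' z ≤ (2 * B)⁻¹ := (abs_sub_le_iff.1 ((k2 j).trans m2)).2
  have j3 : gm g 0 0 z - gm g' 0 0 z ≤ (2 * B)⁻¹ := (abs_sub_le_iff.1 ((k3 j).trans m3)).2
  let i : I := ⟨j, ⟨show _ ≤ Om g' z by linarith, show _ ≤ dg g' z by linarith⟩,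
    show _ ≤ Om g z by linarith, show _ ≤ dg g z by linarith⟩
  have m7 : C * μ ≤ 1 := m5.trans (div_le_self zero_le_one (one_le_pow₀ hB))
  have t : ∀ {f f' : R4 → ℝ} {C0}, JB 3 f z C0 → JB 3 (fun y => f' y - f y) z (C * μ) →
      JB 3 f' z (C0 + 1) := fun p q =>
    (p.add (q.mono m7)).congr (.of_forall fun _ => by simp)
  refine ⟨i.2.1.1, i.2.1.2, by linarith, (c0 i).zero.trans m4, fun C0 rc r ⟨p0, p1, p2⟩ =>
    ⟨t p0 (c0 i), fun a => t (p1 a) (c1 a i), fun a b => ⟨t (p2 a b).1 (c2 a b i), ?_⟩⟩⟩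
  have q : |a2 g' a b z - a2 g a b z| ≤ 1 / rc ^ 2 := ((c2 a b i).zero.trans m5).trans (by
    have := zero_lt_one.trans_le r.1
    gcongr
    exact r.2)
  rw [add_div]
  linarith [(p2 a b).2, abs_sub_abs_le_abs_sub (a2 g' a b z) (a2 g a b z)]

/-- Functions of the metric and of two derivatives. -/
def Gz (F : ℝ → Tw → R4 → ℝ) : Prop :=
  ∀ (J : Type) (m : ℕ) (x : J → R4) (r : J → ℝ) (g : J → Tw), (∀ j, 1 ≤ r j) →
    Fa (m + 2) x 1 g g → Oj m x (fun j y => (tb (g j) y).inverse) 1 →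
    Oj m x (fun j => F (r j) (g j)) 1

/-- The hypotheses of RZB. -/
def Hb (n : ℕ) (B : ℝ) (i : Tw × Set R4 × R4 × ℝ) : Prop :=
  ((IsOpen i.2.1 ∧ i.2.2.1 ∈ i.2.1) ∧ Met i.1 i.2.1) ∧ (Bd (n + 2) i.1 i.2.2.1 B ∧
    ∀ v, ‖v‖ ≤ B * ‖tb i.1 i.2.2.1 v‖) ∧ (B⁻¹ ≤ Om i.1 i.2.2.1 ∧ B⁻¹ ≤ dg i.1 i.2.2.1) ∧
    1 ≤ i.2.2.2

theorem Gz.cl {F : ℝ → Tw → R4 → ℝ} (h : Gz F) (n : ℕ) {B : ℝ} (hB : 1 ≤ B) :
    ∀ᶠ C in atTop, ∀ i : Subtype (Hb n B), ∀ w, (B ^ 2)⁻¹ ≤ w →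
      Cl n 1 1 (F i.1.2.2.2 i.1.1) i.1.2.2.1 (C * w) := by
  have b : 0 < B⁻¹ := by positivity
  have o : Fo (n + 2) (fun i : Subtype (Hb n B) => i.1.2.2.1) 1 (fun i => i.1.1) fun i => i.1.1 :=
    fun v w => df_self (bd_o1 (fun i => i.2.1.1) (fun i => i.2.1.2) hB (fun i => i.2.2.1.1) v w)
  have v := fun i : Subtype (Hb n B) => inv_of_inj ((rp_tb i.2.1.1.1 i.2.1.2).nd _ i.2.1.1.2)
  have k := h _ n _ _ _ (fun i => i.2.2.2.2) ⟨o, _, b, fun i => ⟨i.2.2.2.1, i.2.2.2.1⟩⟩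
    ((Oj.inv v ⟨B, fun i => ContinuousLinearMap.opNorm_le_bound _ (zero_le_one.trans hB) fun α =>
      (i.2.2.1.2 _).trans_eq (by rw [(v i).self_apply_inverse])⟩ (rz_tb o)).le (by omega))
  obtain ⟨C, hC⟩ := (jb_ev k fun i => (rz_ev i.2.1.1.1 i.2.1.2 i.2.1.1.2 (b.trans_le i.2.2.2.1.1)
    (b.trans_le i.2.2.2.1.2)).mono fun _ k => (h _ 0 _ _ _ (fun _ => i.2.2.2.2) k.1 k.2).sm
    ()).exists
  filter_upwards [eventually_ge_atTop (|C| * B ^ 2)] with C' c i w hw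
  refine cl_one ((hC i).mono ?_)
  calc C * 1 ≤ |C| * B ^ 2 * (B ^ 2)⁻¹ := by
        rw [mul_assoc, mul_inv_cancel₀ (by positivity), mul_one, mul_one]
        exact le_abs_self C
    _ ≤ C' * w := mul_le_mul c hw (by positivity) (le_trans (by positivity) c)

theorem gz_rie (i j k o : Fin 4) : Gz fun r g => rie g (fv (lh g) e0 r) i j k o :=
  fun _ m x r g hr h hi => by
  have c : ∀ v : R4, Oj m x (fun j _ => (r j)⁻¹ • v) 1 := fun v =>
    .const h.lh.nn ⟨‖v‖, fun j => by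
      rw [norm_smul, Pi.one_apply, mul_one]
      exact mul_le_of_le_one_left (norm_nonneg _) (by
        rw [norm_inv, Real.norm_of_nonneg (zero_le_one.trans (hr j))]
        exact inv_le_one_of_one_le₀ (hr j))⟩
  have f : ∀ i, Oj m x (fun j y => fv (lh (g j)) e0 (r j) y i) 1 := fun i => by
    fin_cases i
    exacts [h.lh.pred.pred, .cst e0, c _, c _]
  exact rz_rm (rz_tb h.ob) hi (f i) (f j) (f k) (f o)

theorem rzb : RZB := fun n B hB => by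
  have t : ∀ {F}, Gz F → _ := fun h => h.cl n hB
  obtain ⟨C, ⟨c, c1, c2, c3, c4⟩, c5, c6, c7, c8, c9, c10⟩ := (((eventually_ge_atTop (B ^ 5)).and
    ((t (F := fun _ => Om) fun _ _ _ _ _ _ h _ => (h.ob e0 e1).l.pred.pred).and
    ((t (F := fun _ => a0) fun _ _ _ _ _ _ h _ => h.a0.l.pred.pred).and
    ((eventually_all.2 fun a => t (F := fun _ g => a1 g a) fun _ _ _ _ _ _ h _ =>
      (h.a1 a).l.pred.pred).and
    (eventually_all.2 fun a => eventually_all.2 fun b => t (F := fun _ g => gm g a b)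
      fun _ _ _ _ _ _ h _ => (h.ob (ey a) (ey b)).l.pred.pred))))).and
    ((t (F := fun _ g => dv e0 (Om g)) fun _ _ _ _ _ _ h _ => rz_dv (h.ob e0 e1).l.pred _).and
    ((t (F := fun _ g => dv e0 (a0 g)) fun _ _ _ _ _ _ h _ => rz_dv h.a0.l.pred _).and
    ((eventually_all.2 fun a => t (F := fun _ g => dv e0 (a1 g a)) fun _ _ _ _ _ _ h _ =>
      rz_dv (h.a1 a).l.pred _).and
    ((eventually_all.2 fun a => eventually_all.2 fun b => t (F := fun _ g => dv e0 (gm g a b))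
      fun _ _ _ _ _ _ h _ => rz_dv (h.ob (ey a) (ey b)).l.pred _).and
    ((eventually_all.2 fun a => eventually_all.2 fun b => t (F := fun _ g => lie g (lh g) a b)
      fun _ m _ _ _ _ h _ => rz_lie (h.le (m + 1).le_succ).ob h.lh.pred a b).and
    (eventually_all.2 fun i => eventually_all.2 fun j => eventually_all.2 fun k =>
      eventually_all.2 fun o => t (gz_rie i j k o)))))))).exists
  have b5 : ∀ k ≤ 5, B ^ k ≤ C := fun k hk => (pow_le_pow_right₀ hB hk).trans c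
  refine ⟨C, by simpa using b5 0 (by omega),
    fun g D z r m C0 rc h1 h2 h3 h4 h5 h6 h7 h8 h9 hr hm hs => ?_⟩
  let i : Subtype (Hb n B) := ⟨(g, D, z, r), ⟨⟨h1, h3⟩, h2⟩, ⟨h4, h5⟩, ⟨h7, h8⟩, hr.1⟩
  have b : 0 < B := by positivity
  have r0 : 0 < r := zero_lt_one.trans_le hr.1
  have r2 : 1 ≤ r ^ 2 := one_le_pow₀ hr.1
  have w0 : (B ^ 2)⁻¹ ≤ 1 := inv_le_one_of_one_le₀ (one_le_pow₀ hB)
  have w1 : (B ^ 2)⁻¹ ≤ m := (inv_anti₀ b (by nlinarith)).trans hm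
  have m0 : 0 ≤ m := le_trans (by positivity) hm
  have w2 : (B ^ 2)⁻¹ ≤ m / r := by
    rw [sq, mul_inv, div_eq_mul_inv]
    exact mul_le_mul hm (inv_anti₀ r0 hr.2) (by positivity) m0
  have w3 : (B ^ 2)⁻¹ ≤ r ^ 2 * m := w1.trans (le_mul_of_one_le_left m0 r2)
  refine ⟨h6, ⟨(inv_anti₀ b (by simpa using b5 1 (by omega))).trans h7, le_trans ?_ h8, h9⟩,
    ⟨mul_one C ▸ c1 i 1 w0, mul_one C ▸ c2 i 1 w0, fun a => mul_one C ▸ c3 a i 1 w0,
      fun a b => c4 a b i _ (w0.trans r2)⟩, c5 i _ w1, c6 i _ w1,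
    fun a => (mul_div_assoc C m r).symm ▸ c7 a i _ w2,
    fun a b => (mul_assoc C _ m).symm ▸ c8 a b i _ w3,
    fun a b => (mul_assoc C _ m).symm ▸ c9 a b i _ w3, fun a b c d => c10 a b c d i _ w1, hs⟩
  calc C⁻¹ * r ^ 4 ≤ (B ^ 5)⁻¹ * B ^ 4 := mul_le_mul (inv_anti₀ (by positivity) c)
        (pow_le_pow_left₀ r0.le hr.2 4) (by positivity) (by positivity)
    _ = B⁻¹ := by field_simp

end Vale.Agent.P354CH
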