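import Vale.Agent.P354SG.Defs

/-!
WT: the weights.
-/

open Set Filter intervalIntegral

noncomputable section

namespace Vale.Agent.P354CH

open Vale.Agent.P354SA (jb)
open Vale.Agent.P354SG

theorem jb_one (x : ℝ) : 1 ≤ jb x := Real.one_le_sqrt.2 (by nlinarith [sq_nonneg x])

theorem jb_pos (x : ℝ) : 0 < jb x := zero_lt_one.trans_le (jb_one x)

theorem jb_le (x : ℝ) : jb x ≤ 1 + |x| :=
  Real.sqrt_le_iff.2 ⟨by positivity, by nlinarith [sq_abs x, abs_nonneg x]⟩

theorem jb_sq (x : ℝ) : jb x ^ 2 = 1 + x ^ 2 := Real.sq_sqrt (by positivity)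

theorem jb_ct : Continuous jb := by
  unfold jb
  fun_prop

theorem jb_inv {f : ℝ → ℝ} (h : Continuous f) : Continuous fun t => (jb (f t))⁻¹ :=
  (jb_ct.comp h).inv₀ fun _ => (jb_pos _).ne'

theorem ash_le {x T : ℝ} (hT : 100 ≤ T) (h : |x| ≤ 2 * T + 2) :
    |Real.arsinh x| ≤ 2 * Real.log T := by
  have k : Real.arsinh (2 * T + 2) ≤ 2 * Real.log T := by
    have := jb_le (2 * T + 2)
    rw [abs_of_pos (by linarith), jb] at this
    rw [Real.arsinh, ← Nat.cast_ofNat (R := ℝ) (n := 2), ← Real.log_pow, Nat.cast_ofNat]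
    exact Real.log_le_log (by positivity) (by nlinarith)
  have := abs_le.1 h
  refine abs_le.2 ⟨?_, (Real.arsinh_le_arsinh.2 this.2).trans k⟩
  linarith [Real.arsinh_le_arsinh.2 this.1, Real.arsinh_neg (2 * T + 2)]

theorem int_jb (T c a b : ℝ) : ∫ t in a..b, (jb (2 * (T - t) - c))⁻¹ =
    (Real.arsinh (2 * (T - a) - c) - Real.arsinh (2 * (T - b) - c)) / 2 := by
  rw [integral_eq_sub_of_hasDerivAt (f := fun t => -Real.arsinh (2 * (T - t) - c) / 2)
    (fun t _ => ?_) ((jb_inv (by fun_prop)).intervalIntegrable _ _)]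
  · ring
  · exact ((((Real.hasDerivAt_arsinh _).comp t ((((hasDerivAt_id t).const_sub T).const_mul
      2).sub_const c)).neg).div_const 2).congr_deriv (by rw [jb]; simp)

theorem at_ct (T c : ℝ) : Continuous fun t => (1 + (2 * (T - t) - c) ^ 2)⁻¹ :=
  Continuous.inv₀ (by fun_prop) fun _ => by positivity

theorem int_at (T c a b : ℝ) : ∫ t in a..b, (1 + (2 * (T - t) - c) ^ 2)⁻¹ ≤ 2 := by
  rw [integral_eq_sub_of_hasDerivAt (f := fun t => -Real.arctan (2 * (T - t) - c) / 2)
    (fun t _ => ?_) ((at_ct T c).intervalIntegrable _ _)]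
  · linarith [Real.arctan_lt_pi_div_two (2 * (T - a) - c),
      Real.neg_pi_div_two_lt_arctan (2 * (T - b) - c), Real.pi_le_four]
  · exact ((((Real.hasDerivAt_arctan' _).comp t ((((hasDerivAt_id t).const_sub T).const_mul
      2).sub_const c)).neg).div_const 2).congr_deriv (by simp)

/-- **WT.** -/
theorem wt : WT := fun B K T L δ sw sc hB hK hL hT hKT hδ hw => by
  have T0 : 100 ≤ T := by nlinarith
  have l1 : 1 ≤ T / L := by rw [le_div_iff₀ (by linarith)]; nlinarith
  have i := fun x => (inv_pos.2 (jb_pos x)).le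
  have i1 := fun x => inv_le_one_of_one_le₀ (jb_one x)
  have c1 := jb_inv (f := fun t => 2 * (T - t)) (by fun_prop)
  have c2 := jb_inv (f := fun t => 2 * (T - t) - sw) (by fun_prop)
  have c3 := jb_inv continuous_id'
  have e : ∀ t, pw B K T sc t ^ 2 = B * (1 + (2 * (T - t) - sc) ^ 2)⁻¹ + K / T ^ 2 := fun t => by
    rw [pw, Real.sq_sqrt (by positivity), jb_sq, div_eq_mul_inv]
  refine ⟨fun t ht => ⟨jb_one _, (jb_le _).trans ?_, ?_, ?_, ?_, ?_, fun h => ⟨(jb_le _).trans ?_,
    if_neg (by linarith)⟩⟩, fun t t' h => ?_, ⟨(c1.add c2).add c3, fun t =>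
      add_nonneg (add_nonneg (i _) (i _)) (i _), ?_⟩, ?_, fun t => Real.sqrt_nonneg _, ?_⟩
  · linarith [abs_le.2 (⟨by linarith [ht.2, hδ.2], by linarith [ht.1, hδ.2]⟩ :
      -(2 * T + 2) ≤ 2 * (T - t) ∧ 2 * (T - t) ≤ 2 * T + 2)]
  · exact (le_add_of_nonneg_right (i _)).trans (le_add_of_nonneg_right (i _))
  · linarith [i1 (2 * (T - t)), i1 (2 * (T - t) - sw), i1 t, show P354SG.mt T sw t = _ + _ + _ from rfl]
  · unfold vt
    split_ifs
    exacts [l1, le_rfl]
  · unfold vt
    split_ifs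
    exacts [le_rfl, l1]
  · linarith [abs_le.2 (⟨by linarith [ht.2, hδ.2], by linarith⟩ :
      -2 ≤ 2 * (T - t) ∧ 2 * (T - t) ≤ 2)]
  · unfold vt
    split_ifs with h1 h2
    exacts [le_rfl, absurd (h.trans h1) h2, l1, le_rfl]
  · have a1 := int_jb T 0 (-δ) (T + δ)
    have a2 := int_jb T sw (-δ) (T + δ)
    have a3 : ∫ t in (-δ)..T + δ, (jb t)⁻¹ = Real.arsinh (T + δ) - Real.arsinh (-δ) :=
      integral_eq_sub_of_hasDerivAt (fun t _ => Real.hasDerivAt_arsinh t)
        (c3.intervalIntegrable _ _)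
    have b := fun x (h1 : -(2 * T + 2) ≤ x) (h2 : x ≤ 2 * T + 2) =>
      abs_le.1 (ash_le T0 (abs_le.2 ⟨h1, h2⟩))
    simp only [sub_zero] at a1
    obtain ⟨d0, d1⟩ := hδ
    obtain ⟨w0, w1⟩ := hw
    unfold P354SG.mt
    rw [integral_add ((c1.intervalIntegrable _ _).add (c2.intervalIntegrable _ _))
      (c3.intervalIntegrable _ _),
      integral_add (c1.intervalIntegrable _ _) (c2.intervalIntegrable _ _), a1, a2, a3]
    linarith [b (2 * (T - -δ)) (by linarith) (by linarith),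
      b (2 * (T - (T + δ))) (by linarith) (by linarith),
      b (2 * (T - -δ) - sw) (by linarith) (by linarith),
      b (2 * (T - (T + δ)) - sw) (by linarith) (by linarith), b (T + δ) (by linarith) (by linarith),
      b (-δ) (by linarith) (by linarith), Real.log_nonneg (show 1 ≤ T by linarith)]
  · exact ((continuous_const.div ((jb_ct.comp (by fun_prop)).pow 2)
      fun _ => (pow_pos (jb_pos _) 2).ne').add continuous_const).sqrt
  · simp only [e]
    rw [integral_add (((at_ct T sc).intervalIntegrable _ _).const_mul B) intervalIntegrable_const,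
      integral_const_mul, integral_const, smul_eq_mul, sub_zero, ← mul_div_assoc]
    refine add_le_add ((mul_le_mul_of_nonneg_left (int_at ..) hB).trans_eq (mul_comm _ _)) ?_
    rw [div_le_iff₀ (by positivity)]
    nlinarith [hδ.1, hδ.2]

end Vale.Agent.P354CH
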